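import Crest.Agent.N325.Lt.Str
import Crest.Agent.N325.Lt.Code
import Crest.Agent.N325.Lt.Cnt

-- ▼ part N325/Lt/Rt
section

/-!
# Row 325 (helper91): level roots, heights, the meet of two nodes
-/

set_option autoImplicit false
open Finset

namespace Crest.Agent.N325.Lt
open Tw

/-- the entries have the levels `i, i+1, …` -/
def LvL (P : Pm) : ℕ → List ℕ → Prop
  | _, [] => True
  | i, a :: l => P.lv a = i ∧ LvL P (i + 1) l

theorem LvL.le {P : Pm} {i m : ℕ} {l : List ℕ} (h : LvL P i l) (hm : m ∈ l) : i ≤ P.lv m := by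
  induction l generalizing i with
  | nil => cases hm
  | cons a l ih =>
    rcases List.mem_cons.1 hm with rfl | hm
    · exact h.1.ge
    · have := ih h.2 hm; omega

theorem meetL_spec {P : Pm} {i m : ℕ} {a b : List ℕ} (ha : LvL P i a) (hb : LvL P i b)
    (h1 : m ∈ a) (h2 : m ∈ b) : meetL a b ∈ a ∧ meetL a b ∈ b ∧ P.lv (meetL a b) ≤ P.lv m := by
  induction a generalizing i b with
  | nil => cases h1
  | cons x a ih =>
    cases b with
    | nil => cases h2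
    | cons y b =>
      rw [meetL]
      split_ifs with h
      · exact ⟨List.mem_cons_self, h ▸ List.mem_cons_self, ha.1.le.trans (ha.le h1)⟩
      · have h1' : m ∈ a := by
          rcases List.mem_cons.1 h1 with rfl | h1
          · rcases List.mem_cons.1 h2 with e | h2
            · exact absurd e h
            · have := hb.2.le h2; have := ha.1; omega
          · exact h1
        have h2' : m ∈ b := by
          rcases List.mem_cons.1 h2 with rfl | h2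
          · have := ha.2.le h1'; have := hb.1; omega
          · exact h2
        obtain ⟨i1, i2, i3⟩ := ih ha.2 hb.2 h1' h2'
        exact ⟨List.mem_cons_of_mem _ i1, List.mem_cons_of_mem _ i2, i3⟩

theorem LvL.eq {P : Pm} {i m m' : ℕ} {l : List ℕ} (h : LvL P i l) (hm : m ∈ l) (hm' : m' ∈ l)
    (e : P.lv m = P.lv m') : m = m' := by
  induction l generalizing i with
  | nil => cases hm
  | cons a l ih =>
    rcases List.mem_cons.1 hm with rfl | h1 <;> rcases List.mem_cons.1 hm' with rfl | h2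
    · rfl
    · have := h.2.le h2; have := h.1; omega
    · have := h.2.le h1; have := h.1; omega
    · exact ih h.2 h1 h2

namespace Cx
variable {G : Gr} {V : List ℕ} {P : Pm} {C : ℕ → ℕ → Col} {pv : ℕ → ℕ} {T : LF}
  (X : Cx G V P C pv T)
include X

/-- the level roots of a node in terms of those of its parent -/
theorem rt_par {x : ℕ} (hx : x ∈ T.ord) :
    (P.lv (T.par.get x) = P.lv x ∧ T.par.get x ≠ x ∧
      rtF G.ed P C x = rtF G.ed P C (T.par.get x)) ∨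
    (P.lv (T.par.get x) = P.lv x + 1 ∧ T.par.get x ≠ x ∧ P.ps x % 3 = 0 ∧
      rtF G.ed P C x = x :: rtF G.ed P C (T.par.get x)) ∨
    (T.par.get x = x ∧ P.ps x % 3 = 0 ∧ rtF G.ed P C x = [x]) := by
  rcases X.pc hx with h | h | h | h
  · obtain ⟨hs, h1, h2, h3, _, _, h6⟩ := h
    refine Or.inl ⟨h2, h6, ?_⟩
    rw [rtF, rtF, h1, h2, h3, (X.hpv.1 _ hs).2.1]
  · obtain ⟨h0, hc, h1, h2, h3, _, _, h6⟩ := h
    refine Or.inl ⟨h2, h6, ?_⟩
    have hk := X.col hx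
    rw [vq_of_main _ h0] at hk
    rw [rtF, rtF, h1, h2, h3, vq_of_main _ h0]
    exact (rts_congr (hk.1.tree _ hk.2 hc).2.2.2.1).symm
  · obtain ⟨h0, hc, hl, h1, h2, h3, _, _, h6⟩ := h
    refine Or.inr (Or.inl ⟨h2, h6, h0, ?_⟩)
    rw [rtF, rtF, h1, h2, h3, vq_of_main _ h0,
      show P.D + 1 - P.lv x = (P.D + 1 - (P.lv x + 1)) + 1 by omega, rts]
    unfold colF at hc
    rw [hc, show 3 * (P.ps x / 3) = P.ps x by omega, P.nd_eta]
  · obtain ⟨h0, hc, hl, h1, _⟩ := h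
    refine Or.inr (Or.inr ⟨h1, h0, ?_⟩)
    rw [rtF, vq_of_main _ h0, show P.D + 1 - P.lv x = 0 + 1 by omega, rts, rts]
    unfold colF at hc
    rw [hc, show 3 * (P.ps x / 3) = P.ps x by omega, P.nd_eta]

theorem rt_spec : ∀ x ∈ T.ord, LvL P (P.lv x) (rtF G.ed P C x) ∧ ∀ y ∈ rtF G.ed P C x,
    Anc T.par.get x y ∧ P.ps y % 3 = 0 ∧ ∀ z ∈ rtF G.ed P C y, z ∈ rtF G.ed P C x := by
  refine X.is.pl.ind fun x hx ih => ?_
  rcases X.rt_par hx with h | h | h
  · obtain ⟨i1, i2⟩ := ih h.2.1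
    rw [h.2.2, ← h.1]
    exact ⟨i1, fun y hy => ⟨(i2 y hy).1.of_par, (i2 y hy).2⟩⟩
  · obtain ⟨i1, i2⟩ := ih h.2.1
    refine ⟨by rw [h.2.2.2]; exact ⟨rfl, h.1 ▸ i1⟩, fun y hy => ?_⟩
    rw [h.2.2.2] at hy
    rcases List.mem_cons.1 hy with rfl | hy
    · exact ⟨Anc.refl _ _, h.2.2.1, fun z hz => hz⟩
    · refine ⟨(i2 y hy).1.of_par, (i2 y hy).2.1, fun z hz => ?_⟩
      rw [h.2.2.2]; exact List.mem_cons_of_mem _ ((i2 y hy).2.2 z hz)
  · refine ⟨by rw [h.2.2]; exact ⟨rfl, trivial⟩, fun y hy => ?_⟩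
    rw [h.2.2, List.mem_singleton] at hy
    subst hy
    exact ⟨Anc.refl _ _, h.2.1, fun z hz => hz⟩

theorem rt_persist {x y m : ℕ} (hx : x ∈ T.ord) (h : Anc T.par.get x y)
    (hm : m ∈ rtF G.ed P C x) : m ∈ rtF G.ed P C y ∨ P.lv m < P.lv y := by
  refine (h.ind (Q := fun y => y ∈ T.ord ∧ (m ∈ rtF G.ed P C y ∨ P.lv m < P.lv y))
    ⟨hx, Or.inl hm⟩ fun z hz => ⟨X.par_mem hz.1, ?_⟩).2
  rcases hz.2 with h2 | h2
  · rcases X.rt_par hz.1 with h | h | h
    · exact Or.inl (h.2.2 ▸ h2)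
    · rw [h.2.2.2] at h2
      rcases List.mem_cons.1 h2 with rfl | h2
      · exact Or.inr (by omega)
      · exact Or.inl h2
    · rw [h.1]; exact Or.inl h2
  · exact Or.inr (h2.trans_le (X.par_mono hz.1).1)

theorem rt_nm {x : ℕ} (hx : x ∈ T.ord) : rtF G.ed P C (T.nm.get x) = rtF G.ed P C x := by
  obtain ⟨h1, h2, h3⟩ := X.ps_nm hx
  rw [rtF, rtF, h1, h2, h3, vq_main]

theorem cl_spec {x : ℕ} (hx : x ∈ T.ord) : (T.cl.get x).length ≤ P.D + 2 ∧
    ∀ y ∈ T.cl.get x, y ∈ T.ord ∧ ∀ z ∈ T.cl.get y, z ∈ T.cl.get x := by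
  have e := X.is.cl x hx
  rw [← X.is.nm x hx] at e
  refine ⟨by rw [e, List.length_cons, rtF, length_rts]; omega, fun y hy => ?_⟩
  rw [e] at hy
  rcases List.mem_cons.1 hy with rfl | hy
  · have hn := X.nm_mem hx
    refine ⟨hn, fun z hz => ?_⟩
    rw [X.is.cl _ hn, ← X.is.nm _ hn, X.rt_nm hx, X.nm_main hn (by rw [(X.ps_nm hx).1]; omega)] at hz
    rwa [e]
  · obtain ⟨h1, h2, h3⟩ := (X.rt_spec x hx).2 y hy
    have hn := (X.anc_mono hx h1).1
    refine ⟨hn, fun z hz => ?_⟩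
    rw [X.is.cl _ hn, ← X.is.nm _ hn, X.nm_main hn h2] at hz
    rw [e]
    rcases List.mem_cons.1 hz with rfl | hz
    · exact List.mem_cons_of_mem _ hy
    · exact List.mem_cons_of_mem _ (h3 z hz)

/-- the root of the tree that contains the node -/
theorem r0 : ∀ x ∈ T.ord, ∃ y ∈ T.ord, P.lv y = P.lv x ∧ rtF G.ed P C y = rtF G.ed P C x ∧
    T.H.get x = T.H.get y + (colF P C x).dep.get (vq G.ed (P.ps x)) ∧
    ((P.lv (T.par.get y) = P.lv y + 1 ∧ T.H.get y = T.H.get (T.par.get y) + 1 ∧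
      rtF G.ed P C y = y :: rtF G.ed P C (T.par.get y)) ∨
      (T.H.get y = 0 ∧ rtF G.ed P C y = [y])) := by
  refine X.is.pl.ind fun x hx ih => ?_
  have hk := X.col hx
  have hr := X.rt_par hx
  rcases X.pc hx with h | h | h | h
  · obtain ⟨hs, h1, h2, h3, _, h5, h6⟩ := h
    obtain ⟨y, hy, i1, i2, i3, i4⟩ := ih h6
    have e : rtF G.ed P C x = rtF G.ed P C (T.par.get x) := by
      rcases hr with h | h | h
      · exact h.2.2
      · omega
      · exact absurd h.1 h6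
    refine ⟨y, hy, i1.trans h2, i2.trans e.symm, ?_, i4⟩
    rw [h5, i3, colF, colF, h1, h2, h3, (X.hpv.1 _ hs).2.1]
  · obtain ⟨h0, hc, h1, h2, h3, _, h5, h6⟩ := h
    obtain ⟨y, hy, i1, i2, i3, i4⟩ := ih h6
    have e : rtF G.ed P C x = rtF G.ed P C (T.par.get x) := by
      rcases hr with h | h | h
      · exact h.2.2
      · omega
      · exact absurd h.1 h6
    refine ⟨y, hy, i1.trans h2, i2.trans e.symm, ?_, i4⟩
    rw [vq_of_main _ h0] at hk ⊢
    have e2 : colF P C (T.par.get x) = colF P C x := by rw [colF, colF, h2, h3]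
    rw [h5, i3, e2, h1, (hk.1.tree _ hk.2 hc).2.2.2.2, add_assoc]
  · obtain ⟨h0, hc, hl, h1, h2, h3, _, h5, h6⟩ := h
    rw [vq_of_main _ h0] at hk ⊢
    refine ⟨x, hx, rfl, rfl, by rw [hk.1.ctr _ hk.2 hc, add_zero], Or.inl ⟨h2, h5, ?_⟩⟩
    rcases hr with h | h | h
    · omega
    · exact h.2.2.2
    · exact absurd h.1 h6
  · obtain ⟨h0, hc, hl, h1, _, h5⟩ := h
    rw [vq_of_main _ h0] at hk ⊢
    refine ⟨x, hx, rfl, rfl, by rw [hk.1.ctr _ hk.2 hc, add_zero], Or.inr ⟨h5, ?_⟩⟩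
    rcases hr with h | h | h
    · exact absurd h1 h.2.1
    · exact absurd h1 h.2.1
    · exact h.2.2

theorem dep_le {x : ℕ} (hx : x ∈ T.ord) :
    (colF P C x).dep.get (vq G.ed (P.ps x)) ≤ P.β * P.ρ ^ P.lv x :=
  (X.col hx).1.rad _ (X.col hx).2

theorem H_rt (j : ℕ) : ∀ x ∈ T.ord, P.lv x + j = P.D → ∀ m ∈ rtF G.ed P C x,
    T.H.get x + (P.β + 1) * P.ρ ^ P.lv x ≤ T.H.get m + 2 * (P.β + 1) * P.ρ ^ P.lv m := by
  induction j with
  | zero =>
    intro x hx hj m hm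
    obtain ⟨y, hy, h1, h2, h3, h4⟩ := X.r0 x hx
    have hd := X.dep_le hx
    rcases h4 with h4 | h4
    · have := (X.node (X.par_mem hy)).1; omega
    · rw [← h2, h4.2, List.mem_singleton] at hm
      subst hm
      rw [h1]; nlinarith [Nat.zero_le (P.ρ ^ P.lv x)]
  | succ j ih =>
    intro x hx hj m hm
    obtain ⟨y, hy, h1, h2, h3, h4⟩ := X.r0 x hx
    have hd := X.dep_le hx
    have hm' : m = y ∨ (P.lv (T.par.get y) = P.lv y + 1 ∧ T.H.get y = T.H.get (T.par.get y) + 1 ∧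
        m ∈ rtF G.ed P C (T.par.get y)) := by
      rw [← h2] at hm
      rcases h4 with h4 | h4
      · rw [h4.2.2] at hm
        exact (List.mem_cons.1 hm).imp id fun h => ⟨h4.1, h4.2.1, h⟩
      · rw [h4.2, List.mem_singleton] at hm; exact Or.inl hm
    rcases hm' with rfl | ⟨k1, k2, k3⟩
    · rw [h1]; nlinarith [Nat.zero_le (P.ρ ^ P.lv x)]
    · have := ih _ (X.par_mem hy) (by omega) m k3
      rw [k1, h1, pow_succ] at this
      have h2ρ := X.hP.ρ2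
      have hp : 1 ≤ P.ρ ^ P.lv x := Nat.one_le_pow _ _ (by omega)
      have : (P.β + 1) * (P.ρ ^ P.lv x * 2) ≤ (P.β + 1) * (P.ρ ^ P.lv x * P.ρ) := by gcongr
      nlinarith

theorem H_le (j : ℕ) : ∀ x ∈ T.ord, P.lv x + j = P.D →
    T.H.get x ≤ (j + 1) * (P.β * P.ρ ^ P.D + 1) := by
  induction j with
  | zero =>
    intro x hx hj
    obtain ⟨y, hy, h1, h2, h3, h4⟩ := X.r0 x hx
    have hd := X.dep_le hx
    rcases h4 with h4 | h4
    · have := (X.node (X.par_mem hy)).1; omega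
    · rw [show P.lv x = P.D by omega] at hd; omega
  | succ j ih =>
    intro x hx hj
    obtain ⟨y, hy, h1, h2, h3, h4⟩ := X.r0 x hx
    have hd := X.dep_le hx
    have h2ρ := X.hP.ρ2
    have hp : P.β * P.ρ ^ P.lv x ≤ P.β * P.ρ ^ P.D :=
      Nat.mul_le_mul_left _ (Nat.pow_le_pow_right (by omega) (by omega))
    rcases h4 with h4 | h4
    · have := ih _ (X.par_mem hy) (by omega)
      rw [add_mul (j + 1) 1]; omega
    · rw [add_mul (j + 1) 1]; omega

theorem Hb {x : ℕ} (hx : x ∈ T.ord) : T.H.get x ≤ P.Hb := by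
  have h := (X.node hx).1
  refine (X.H_le (P.D - P.lv x) x hx (by omega)).trans ?_
  exact Nat.mul_le_mul_right _ (by omega)

theorem top_rt {x : ℕ} (hx : x ∈ T.ord) :
    P.nd (3 * (C P.D 0).cen.get (vq G.ed (P.ps x))) P.D 0 ∈ rtF G.ed P C x := by
  have h := X.node hx
  have := top_mem_rts X.hC X.hP X.pos h.2.2 (by have := h.1; omega)
  rwa [rtF, show P.D + 1 - P.lv x = P.D - P.lv x + 1 by have := h.1; omega]

/-- the meet of the two ends of an object -/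
theorem meet {o : ℕ × ℕ × ℕ × ℕ} (ho : o ∈ T.obj) : o.2.2.2 ∈ rtF G.ed P C o.2.1 ∧
    o.2.2.2 ∈ rtF G.ed P C o.2.2.1 ∧ ∀ m ∈ rtF G.ed P C o.2.1, m ∈ rtF G.ed P C o.2.2.1 →
      P.lv o.2.2.2 ≤ P.lv m := by
  obtain ⟨h1, h2, h3, h4, h5, h6, h7, h8⟩ := (X.is.obj o).1 ho
  have l1 := (X.rt_spec _ h2).1
  have l2 := (X.rt_spec _ h3).1
  rw [h6] at l1
  rw [h7] at l2
  have t1 := X.top_rt h2
  have t2 := X.top_rt h3
  rw [h4, vq_a] at t1
  rw [h5, vq_b, ← X.hC.2.2.2 _ h1] at t2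
  rw [h8]
  exact ⟨(meetL_spec l1 l2 t1 t2).1, (meetL_spec l1 l2 t1 t2).2.1,
    fun m m1 m2 => (meetL_spec l1 l2 m1 m2).2.2⟩

theorem obj_spec {o : ℕ × ℕ × ℕ × ℕ} (ho : o ∈ T.obj) : o.2.2.2 ∈ T.ord ∧
    Anc T.par.get o.2.1 o.2.2.2 ∧ Anc T.par.get o.2.2.1 o.2.2.2 ∧
    T.H.get o.2.2.2 ≤ T.H.get o.2.1 ∧ T.H.get o.2.2.2 ≤ T.H.get o.2.2.1 ∧
    ∀ x, (Anc T.par.get o.2.1 x ∨ Anc T.par.get o.2.2.1 x) → Anc T.par.get x o.2.2.2 →
      o.2.2.2 ∈ T.cl.get x := by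
  obtain ⟨_, h2, h3, _⟩ := (X.is.obj o).1 ho
  obtain ⟨m1, m2, _⟩ := X.meet ho
  have a1 := ((X.rt_spec _ h2).2 _ m1).1
  have a2 := ((X.rt_spec _ h3).2 _ m2).1
  refine ⟨(X.anc_mono h2 a1).1, a1, a2, (X.anc_mono h2 a1).2.2, (X.anc_mono h3 a2).2.2,
    fun x hx hm => ?_⟩
  have key : ∀ u ∈ T.ord, o.2.2.2 ∈ rtF G.ed P C u → Anc T.par.get u x → o.2.2.2 ∈ T.cl.get x := by
    intro u hu hr ha
    have hx' := (X.anc_mono hu ha).1
    rw [X.is.cl x hx']
    rcases X.rt_persist hu ha hr with h | h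
    · exact List.mem_cons_of_mem _ h
    · have := (X.anc_mono hx' hm).2.1; omega
  rcases hx with hx | hx
  · exact key _ h2 m1 hx
  · exact key _ h3 m2 hx

/-- the length of an object whose ends have a common level root on level `i` -/
theorem lam_le {o : ℕ × ℕ × ℕ × ℕ} (ho : o ∈ T.obj) {m : ℕ} (m1 : m ∈ rtF G.ed P C o.2.1)
    (m2 : m ∈ rtF G.ed P C o.2.2.1) :
    T.lam G.ed o ≤ (G.ed o.1).l + 4 * (P.β + 1) * P.ρ ^ P.lv m := by
  obtain ⟨_, h2, h3, _⟩ := (X.is.obj o).1 ho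
  obtain ⟨k1, k2, k3⟩ := X.meet ho
  have e1 := X.H_rt (P.D - P.lv o.2.1) _ h2 (by have := (X.node h2).1; omega) _ k1
  have e2 := X.H_rt (P.D - P.lv o.2.2.1) _ h3 (by have := (X.node h3).1; omega) _ k2
  have h2ρ := X.hP.ρ2
  have hp : 2 * (P.β + 1) * P.ρ ^ P.lv o.2.2.2 ≤ 2 * (P.β + 1) * P.ρ ^ P.lv m :=
    Nat.mul_le_mul_left _ (Nat.pow_le_pow_right (by omega) (k3 m m1 m2))
  have : 4 * (P.β + 1) * P.ρ ^ P.lv m = 2 * (2 * (P.β + 1) * P.ρ ^ P.lv m) := by ring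
  unfold LF.lam
  omega

end Cx

end Crest.Agent.N325.Lt
end

-- ▼ part N325/Lt/Cpl0
section

/-!
# Row 325 (helper91): the coupling on one scale, the padding weights
-/

set_option autoImplicit false
open Finset

namespace Crest.Agent.N325.Lt
open Tw

/-- `y` lies in the convex hull of the values -/
def Hull (S : ℝ → Prop) (y : ℝ) : Prop :=
  (∀ lo, (∀ a, S a → lo ≤ a) → lo ≤ y) ∧ ∀ hi, (∀ a, S a → a ≤ hi) → y ≤ hi

theorem Hull.mono {S S' : ℝ → Prop} {y : ℝ} (h : Hull S y) (k : ∀ a, S a → S' a) : Hull S' y :=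
  ⟨fun lo h' => h.1 lo fun a ha => h' a (k a ha), fun hi h' => h.2 hi fun a ha => h' a (k a ha)⟩

theorem Hull.self {S : ℝ → Prop} {y : ℝ} (h : S y) : Hull S y := ⟨fun _ k => k y h, fun _ k => k y h⟩

theorem Hull.pair {S S' : ℝ → Prop} {y y' γ B : ℝ} (h : Hull S y) (h' : Hull S' y')
    (k : ∀ a b, S a → S' b → |γ - (b - a)| ≤ B) : |γ - (y' - y)| ≤ B := by
  rw [abs_le]
  constructor
  · have : y' ≤ B + γ + y := h'.2 _ fun b hb => by
      have : b - γ - B ≤ y := h.1 _ fun a ha => by have := (abs_le.1 (k a b ha hb)).1; linarith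
      linarith
    linarith
  · have : y + γ - B ≤ y' := h'.1 _ fun b hb => by
      have : y ≤ B - γ + b := h.2 _ fun a ha => by have := (abs_le.1 (k a b ha hb)).2; linarith
      linarith
    linarith

theorem Hull.avg {S : ℝ → Prop} {s : Finset ℕ} {p F : ℕ → ℝ} (h0 : ∀ c ∈ s, 0 ≤ p c)
    (h1 : ∑ c ∈ s, p c = 1) (h : ∀ c ∈ s, p c ≠ 0 → Hull S (F c)) : Hull S (∑ c ∈ s, p c * F c) := by
  constructor
  · intro lo k
    calc lo = ∑ c ∈ s, p c * lo := by rw [← sum_mul, h1, one_mul]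
      _ ≤ _ := sum_le_sum fun c hc => by
        by_cases hp : p c = 0
        · simp [hp]
        · exact mul_le_mul_of_nonneg_left ((h c hc hp).1 lo k) (h0 c hc)
  · intro hi k
    calc _ ≤ ∑ c ∈ s, p c * hi := sum_le_sum fun c hc => by
          by_cases hp : p c = 0
          · simp [hp]
          · exact mul_le_mul_of_nonneg_left ((h c hc hp).2 hi k) (h0 c hc)
      _ = hi := by rw [← sum_mul, h1, one_mul]

theorem mass_pair {s : Finset ℕ} {p q F H : ℕ → ℝ} {γ B τ : ℝ} (hp : ∀ c ∈ s, 0 ≤ p c)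
    (hq : ∀ c ∈ s, 0 ≤ q c) (h1 : ∑ c ∈ s, p c = τ) (h2 : ∑ c ∈ s, q c = τ)
    (k : ∀ c ∈ s, ∀ c' ∈ s, p c ≠ 0 → q c' ≠ 0 → |γ - (H c' - F c)| ≤ B) :
    |τ * γ - (∑ c ∈ s, q c * H c - ∑ c ∈ s, p c * F c)| ≤ τ * B := by
  have hτ : 0 ≤ τ := h1 ▸ sum_nonneg hp
  rcases hτ.eq_or_lt with h0 | h0
  · have e1 := (sum_eq_zero_iff_of_nonneg hp).1 (h1.trans h0.symm)
    have e2 := (sum_eq_zero_iff_of_nonneg hq).1 (h2.trans h0.symm)
    rw [sum_eq_zero fun c hc => by rw [e2 c hc, zero_mul],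
      sum_eq_zero fun c hc => by rw [e1 c hc, zero_mul], ← h0]
    simp
  · have a1 : Hull (fun a => ∃ c ∈ s, p c ≠ 0 ∧ a = F c) (∑ c ∈ s, p c / τ * F c) :=
      Hull.avg (fun c hc => div_nonneg (hp c hc) hτ) (by rw [← sum_div, h1, div_self h0.ne'])
        fun c hc h => Hull.self ⟨c, hc, fun e => h (by rw [e, zero_div]), rfl⟩
    have a2 : Hull (fun a => ∃ c ∈ s, q c ≠ 0 ∧ a = H c) (∑ c ∈ s, q c / τ * H c) :=
      Hull.avg (fun c hc => div_nonneg (hq c hc) hτ) (by rw [← sum_div, h2, div_self h0.ne'])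
        fun c hc h => Hull.self ⟨c, hc, fun e => h (by rw [e, zero_div]), rfl⟩
    have := a1.pair a2 (γ := γ) (B := B) (by
      rintro a b ⟨c, hc, h, rfl⟩ ⟨c', hc', h', rfl⟩
      exact k c hc c' hc' h h')
    have e : τ * γ - (∑ c ∈ s, q c * H c - ∑ c ∈ s, p c * F c) =
        τ * (γ - (∑ c ∈ s, q c / τ * H c - ∑ c ∈ s, p c / τ * F c)) := by
      rw [mul_sub, mul_sub, mul_sum, mul_sum]
      congr 2 <;> refine sum_congr rfl fun c _ => ?_ <;> field_simp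
    rw [e, abs_mul, abs_of_pos h0]
    exact mul_le_mul_of_nonneg_left this hτ

/-- **the coupling on one scale** -/
theorem coup {s : Finset ℕ} {p q F H : ℕ → ℝ} {γ A B τ : ℝ} (hp : ∀ c ∈ s, 0 ≤ p c)
    (hq : ∀ c ∈ s, 0 ≤ q c) (h1 : ∑ c ∈ s, p c = 1) (h2 : ∑ c ∈ s, q c = 1) (hA : 0 ≤ A)
    (hB : 0 ≤ B) (hτ : 1 - τ ≤ ∑ c ∈ s, min (p c) (q c))
    (kA : ∀ c ∈ s, p c ≠ 0 → q c ≠ 0 → |γ - (H c - F c)| ≤ A)
    (kB : ∀ c ∈ s, ∀ c' ∈ s, p c ≠ 0 → q c' ≠ 0 → |γ - (H c' - F c)| ≤ B) :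
    |γ - (∑ c ∈ s, q c * H c - ∑ c ∈ s, p c * F c)| ≤ A + τ * B := by
  set μ := ∑ c ∈ s, min (p c) (q c) with hμ
  have m0 : ∀ c ∈ s, 0 ≤ min (p c) (q c) := fun c hc => le_min (hp c hc) (hq c hc)
  have hμ1 : μ ≤ 1 := h1 ▸ sum_le_sum fun c _ => min_le_left _ _
  have e2 := mass_pair (s := s) (p := fun c => p c - min (p c) (q c))
    (q := fun c => q c - min (p c) (q c)) (F := F) (H := H) (γ := γ) (B := B) (τ := 1 - μ)
    (fun c _ => sub_nonneg.2 (min_le_left _ _)) (fun c _ => sub_nonneg.2 (min_le_right _ _))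
    (by rw [sum_sub_distrib, h1]) (by rw [sum_sub_distrib, h2]) fun c hc c' hc' a b =>
      kB c hc c' hc' (fun e => a (by rw [e, min_eq_left (hq c hc), sub_zero]))
        fun e => b (by rw [e, min_eq_right (hp c' hc'), sub_zero])
  have e1 : |∑ c ∈ s, min (p c) (q c) * (γ - (H c - F c))| ≤ A := by
    refine (abs_sum_le_sum_abs _ _).trans ?_
    calc _ ≤ ∑ c ∈ s, min (p c) (q c) * A := sum_le_sum fun c hc => by
          rw [abs_mul, abs_of_nonneg (m0 c hc)]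
          by_cases h : min (p c) (q c) = 0
          · simp [h]
          · refine mul_le_mul_of_nonneg_left (kA c hc (fun e => h ?_) fun e => h ?_) (m0 c hc)
            · rw [e, min_eq_left (hq c hc)]
            · rw [e, min_eq_right (hp c hc)]
      _ = μ * A := by rw [← sum_mul]
      _ ≤ A := mul_le_of_le_one_left hA hμ1
  have e : γ - (∑ c ∈ s, q c * H c - ∑ c ∈ s, p c * F c) =
      ∑ c ∈ s, min (p c) (q c) * (γ - (H c - F c)) + ((1 - μ) * γ -
        (∑ c ∈ s, (q c - min (p c) (q c)) * H c - ∑ c ∈ s, (p c - min (p c) (q c)) * F c)) := by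
    simp only [mul_sub, sub_mul, sum_sub_distrib, ← sum_mul, ← hμ]
    ring
  rw [e]
  refine (abs_add_le _ _).trans (add_le_add e1 (e2.trans ?_))
  exact mul_le_mul_of_nonneg_right (by linarith) hB

theorem tv_le {s : Finset ℕ} {a b : ℕ → ℝ} {l r : ℝ} (ha : ∀ c ∈ s, 0 ≤ a c) (hb : ∀ c ∈ s, 0 ≤ b c)
    (hr : 0 < r) (hl : 0 ≤ l) (h1 : r ≤ ∑ c ∈ s, a c) (h2 : r ≤ ∑ c ∈ s, b c)
    (k1 : ∀ c ∈ s, a c ≤ b c + l) (k2 : ∀ c ∈ s, b c ≤ a c + l) :
    1 - s.card * l / r ≤ ∑ c ∈ s, min (a c / ∑ c ∈ s, a c) (b c / ∑ c ∈ s, b c) := by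
  set A := ∑ c ∈ s, a c
  set B := ∑ c ∈ s, b c
  have hM : 0 < max A B := lt_max_of_lt_left (hr.trans_le h1)
  have e1 : ∑ c ∈ s, min (a c) (b c) / max A B ≤ ∑ c ∈ s, min (a c / A) (b c / B) :=
    sum_le_sum fun c hc => le_min
      (div_le_div₀ (ha c hc) (min_le_left _ _) (hr.trans_le h1) (le_max_left _ _))
      (div_le_div₀ (hb c hc) (min_le_right _ _) (hr.trans_le h2) (le_max_right _ _))
  have e2 : max A B - s.card * l ≤ ∑ c ∈ s, min (a c) (b c) := by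
    rw [sub_le_iff_le_add, max_le_iff]
    have : (s.card : ℝ) * l = ∑ c ∈ s, l := by simp
    rw [this, ← sum_add_distrib]
    exact ⟨sum_le_sum fun c hc => by
        rw [← sub_le_iff_le_add]; exact le_min (by linarith) (by linarith [k1 c hc]),
      sum_le_sum fun c hc => by
        rw [← sub_le_iff_le_add]; exact le_min (by linarith [k2 c hc]) (by linarith)⟩
  refine le_trans ?_ e1
  rw [← sum_div, le_div_iff₀ hM]
  refine le_trans ?_ e2
  have : (s.card : ℝ) * l ≤ s.card * l / r * max A B := by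
    rw [div_mul_eq_mul_div, le_div_iff₀ hr]
    exact mul_le_mul_of_nonneg_left (h1.trans (le_max_left _ _)) (by positivity)
  linarith

/-- the ball of radius `t` about `v` lies in the cluster of `v` -/
def Pd (G : Gr) (K : Col) (v t : ℕ) : Prop :=
  ∀ x d, Near G v x d → d ≤ t → x ∈ K.ord ∧ K.cen.get x = K.cen.get v

open Classical in
/-- the padding weight -/
noncomputable def phi (G : Gr) (K : Col) (r v : ℕ) : ℕ := Nat.findGreatest (Pd G K v) (2 * r) - r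

theorem Pd.mono {G : Gr} {K : Col} {v t t' : ℕ} (h : Pd G K v t) (k : t' ≤ t) : Pd G K v t' :=
  fun x d a b => h x d a (b.trans k)

theorem pd_of_phi {G : Gr} {K : Col} {r v : ℕ} (h : phi G K r v ≠ 0) : Pd G K v r := by
  classical
  unfold phi at h
  have h1 : Pd G K v (Nat.findGreatest (Pd G K v) (2 * r)) :=
    Nat.findGreatest_of_ne_zero rfl (by omega)
  exact h1.mono (by omega)

theorem phi_eq {G : Gr} {K : Col} {r v : ℕ} (h : Pd G K v (2 * r)) : phi G K r v = r := by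
  classical
  unfold phi
  rw [Nat.findGreatest_eq h]; omega

theorem phi_lip {G : Gr} {K : Col} {r u v l : ℕ} (h : Near G u v l) :
    phi G K r u ≤ phi G K r v + l := by
  classical
  unfold phi
  by_cases h0 : Nat.findGreatest (Pd G K u) (2 * r) ≤ l
  · omega
  · have h1 : Pd G K u (Nat.findGreatest (Pd G K u) (2 * r)) :=
      Nat.findGreatest_of_ne_zero rfl (by omega)
    have h2 : Pd G K v (Nat.findGreatest (Pd G K u) (2 * r) - l) := fun x d a b => by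
      obtain ⟨k1, k2⟩ := h1 x _ (h.trans a) (by omega)
      exact ⟨k1, k2.trans (h1 v l h (by omega)).2.symm⟩
    have h3 := Nat.le_findGreatest
      ((Nat.sub_le _ _).trans (Nat.findGreatest_le (P := Pd G K u) (2 * r))) h2
    omega

end Crest.Agent.N325.Lt
end

-- ▼ part N325/Lt/Cpl
section

/-!
# Row 325 (helper91): the coupling lemma of the lifted forest
-/

set_option autoImplicit false
open Finset

namespace Crest.Agent.N325.Lt
open Tw

section defs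
variable (G : Gr) (P : Pm) (C : ℕ → ℕ → Col)

/-- the weight of the colour `c` at `v` on level `i` -/
noncomputable def wt (i v c : ℕ) : ℝ :=
  (phi G (C i c) (P.ρ ^ i) v : ℝ) / ∑ c ∈ range P.s, (phi G (C i c) (P.ρ ^ i) v : ℝ)

/-- the average of `ζ` over the copies of `v` below the code `w` of level `i` -/
noncomputable def Ya (ζ : ℕ → ℝ) (v : ℕ) : ℕ → ℕ → ℝ
  | 0, w => ζ (P.nd (3 * v) 0 w)
  | i + 1, w => ∑ c ∈ range P.s, wt G P C i v c * Ya ζ v i (w * P.s + c)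

/-- `(v, w)` exists on level `i` and is padded -/
def Pad (i v w : ℕ) : Prop := val P C (P.D - i) i v w ∧ Pd G (C i (w % P.s)) v (P.ρ ^ i)

/-- the main copies of `v` below the level root of `(v, w)` -/
def Cp (T : LF) (v i w x : ℕ) : Prop := x ∈ T.ord ∧ P.ps x = 3 * v ∧ P.lv x = 0 ∧
  P.nd (3 * (C i (w % P.s)).cen.get v) i w ∈ rtF G.ed P C x

end defs

theorem code_mod {s w c : ℕ} (h : c < s) : (w * s + c) % s = c := by
  rw [Nat.mul_comm, Nat.mul_add_mod, Nat.mod_eq_of_lt h]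
theorem code_div {s w c : ℕ} (h : c < s) : (w * s + c) / s = w := by
  rw [Nat.mul_comm, Nat.mul_add_div (by omega), Nat.div_eq_of_lt h, add_zero]

theorem Near.mem {G : Gr} {V : List ℕ} (hV : Vtx G V) {v x d : ℕ} (hv : v ∈ V) (h : Near G v x d) :
    x ∈ V := by
  cases h with
  | refl => exact hv
  | step hq _ => exact (hV.2 _).2 ⟨_, hq.opp, rfl⟩

namespace Cx
variable {G : Gr} {V : List ℕ} {P : Pm} {C : ℕ → ℕ → Col} {pv : ℕ → ℕ} {T : LF}
  (X : Cx G V P C pv T)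
include X

theorem rho_pos (i : ℕ) : 1 ≤ P.ρ ^ i := Nat.one_le_pow _ _ (by have := X.hP.ρ2; omega)

theorem sum_phi {i v : ℕ} (hi : i < P.D) (hv : v ∈ V) :
    ((P.ρ ^ i : ℕ) : ℝ) ≤ ∑ c ∈ range P.s, (phi G (C i c) (P.ρ ^ i) v : ℝ) := by
  obtain ⟨c, hc, h⟩ := (X.hC.1 i hi).2 v hv
  have := single_le_sum (f := fun c => (phi G (C i c) (P.ρ ^ i) v : ℝ))
    (fun _ _ => Nat.cast_nonneg _) (mem_range.2 hc)
  rwa [phi_eq h] at this

omit X in
theorem wt_nonneg (i v c : ℕ) : 0 ≤ wt G P C i v c :=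
  div_nonneg (Nat.cast_nonneg _) (sum_nonneg fun _ _ => Nat.cast_nonneg _)

theorem sum_wt {i v : ℕ} (hi : i < P.D) (hv : v ∈ V) : ∑ c ∈ range P.s, wt G P C i v c = 1 := by
  have h := X.sum_phi hi hv
  have h1 : (0 : ℝ) < ((P.ρ ^ i : ℕ) : ℝ) := by exact_mod_cast X.rho_pos i
  unfold wt
  rw [← sum_div, div_self (h1.trans_le h).ne']

omit X in
theorem pd_of_wt {i v c : ℕ} (h : wt G P C i v c ≠ 0) : Pd G (C i c) v (P.ρ ^ i) :=
  pd_of_phi fun e => h (by rw [wt, e]; simp)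

theorem pad_mem {i v w : ℕ} (hi : i ≤ P.D) (h : Pad G P C i v w) : v ∈ V :=
  have h' := val_col X.hC X.hP h.1 (by omega)
  h'.1.sub _ h'.2.1

theorem pad_top {v : ℕ} (hv : v ∈ V) : Pad G P C P.D v 0 := by
  refine ⟨by rw [Nat.sub_self]; exact ⟨X.hC.2.2.1 v hv, rfl⟩, fun x d h _ => ?_⟩
  rw [Nat.zero_mod]
  exact ⟨X.hC.2.2.1 x (h.mem X.hV hv), top_near X.hC h⟩

theorem cen_pad {i v w c : ℕ} (hi : i < P.D) (h : Pad G P C (i + 1) v w) (hc : c < P.s)
    (hp : Pd G (C i c) v (P.ρ ^ i)) : (C i c).cen.get v ∈ (C (i + 1) (w % P.s)).ord ∧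
      (C (i + 1) (w % P.s)).cen.get ((C i c).cen.get v) = (C (i + 1) (w % P.s)).cen.get v := by
  have hk := (X.hC.1 i hi).1 c hc
  have hv := (hp v 0 Near.refl (Nat.zero_le _)).1
  refine h.2 _ _ (hk.cen X.pos v hv).2.2 ((hk.rad v hv).trans ?_)
  rw [pow_succ']; exact Nat.mul_le_mul_right _ X.hP.βρ

theorem pad_step {i v w c : ℕ} (hi : i < P.D) (h : Pad G P C (i + 1) v w) (hc : c < P.s)
    (hp : Pd G (C i c) v (P.ρ ^ i)) : Pad G P C i v (w * P.s + c) := by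
  obtain ⟨h1, h2⟩ := X.cen_pad hi h hc hp
  refine ⟨?_, by rwa [code_mod hc]⟩
  rw [show P.D - i = P.D - (i + 1) + 1 by omega, val, code_mod hc, code_div hc]
  exact ⟨(hp v 0 Near.refl (Nat.zero_le _)).1, val_congr h.1 h1 h2⟩

theorem cp_zero {v w : ℕ} (h : Pad G P C 0 v w) : Cp G P C T v 0 w (P.nd (3 * v) 0 w) := by
  have hw := val_lt X.hC X.hP h.1 (by omega)
  refine ⟨X.nd_mem (Nat.zero_le _) (Or.inl (by omega)) (by rw [vq_main]; exact h.1),
    P.ps_nd hw (by omega), P.lv_nd hw (by omega), ?_⟩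
  rw [rtF, P.ps_nd hw (by omega), P.lv_nd hw (by omega), P.cd_nd hw, vq_main, Nat.sub_zero, rts]
  exact List.mem_cons_self

theorem cp_step {i v w c x : ℕ} (hi : i < P.D) (h : Pad G P C (i + 1) v w) (hc : c < P.s)
    (hp : Pd G (C i c) v (P.ρ ^ i)) (hx : Cp G P C T v i (w * P.s + c) x) :
    Cp G P C T v (i + 1) w x := by
  obtain ⟨h1, h2, h3, h4⟩ := hx
  refine ⟨h1, h2, h3, ((X.rt_spec x h1).2 _ h4).2.2 _ ?_⟩
  have hw := val_lt X.hC X.hP (X.pad_step hi h hc hp).1 (by omega)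
  have hk := (X.hC.1 i hi).1 c hc
  have hv := (hp v 0 Near.refl (Nat.zero_le _)).1
  rw [rtF, P.ps_nd hw (by omega), P.lv_nd hw (by omega), P.cd_nd hw, vq_main,
    show P.D + 1 - i = P.D - (i + 1) + 1 + 1 by omega, rts, rts, code_mod hc, code_div hc,
    (hk.cen X.pos v hv).2.1, (X.cen_pad hi h hc hp).2]
  exact List.mem_cons_of_mem _ List.mem_cons_self

theorem hull (ζ : ℕ → ℝ) (v : ℕ) {i : ℕ} (hi : i ≤ P.D) {w : ℕ} (h : Pad G P C i v w) :
    Hull (fun a => ∃ x, Cp G P C T v i w x ∧ a = ζ x) (Ya G P C ζ v i w) := by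
  induction i generalizing w with
  | zero => exact Hull.self ⟨_, X.cp_zero h, rfl⟩
  | succ i ih =>
    rw [Ya]
    refine Hull.avg (fun c _ => wt_nonneg i v c) (X.sum_wt (by omega) (X.pad_mem hi h))
      fun c hc hw => ?_
    have hp := pd_of_wt hw
    refine (ih (by omega) (X.pad_step (by omega) h (mem_range.1 hc) hp)).mono ?_
    rintro a ⟨x, hx, rfl⟩
    exact ⟨x, X.cp_step (by omega) h (mem_range.1 hc) hp hx, rfl⟩

/-- the slot below a main node -/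
theorem slot {x q : ℕ} (hx : x ∈ T.ord) (hq : Slot G q) (h : P.ps x = 3 * vq G.ed q) :
    ∃ y ∈ T.ord, P.ps y = q ∧ P.lv y = P.lv x ∧ T.nm.get y = x := by
  have hn := X.node hx
  have hw := Pm.cd_lt X.hP x
  have hl := P.lv_lt x
  have hy : P.nd q (P.lv x) (P.cd x) ∈ T.ord :=
    X.nd_mem hn.1 (Or.inr hq) (by have := hn.2.2; rwa [h, vq_main] at this)
  refine ⟨_, hy, P.ps_nd hw hl, P.lv_nd hw hl, ?_⟩
  obtain ⟨h1, h2, h3⟩ := X.ps_nm hy
  refine P.ext ?_ ?_ ?_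
  · rw [h1, P.ps_nd hw hl, h]
  · rw [h2, P.lv_nd hw hl]
  · rw [h3, P.cd_nd hw]

variable {ζ : ℕ → ℝ} (hζ : ∀ x ∈ T.ord, ζ x = ζ (T.nm.get x)) {e : ℕ} (he : e ∈ G.E) {γ θ : ℝ}
  (hθ : 0 ≤ θ) (ho : ∀ o ∈ T.obj, o.1 = e → |γ - (ζ o.2.2.1 - ζ o.2.1)| ≤ θ * T.lam G.ed o)
include hζ he hθ ho

theorem pairB {i w x y : ℕ} (hi : i ≤ P.D) (hw : w < P.S)
    (hc : (C i (w % P.s)).cen.get (G.ed e).a = (C i (w % P.s)).cen.get (G.ed e).b)
    (hx : Cp G P C T (G.ed e).a i w x) (hy : Cp G P C T (G.ed e).b i w y) :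
    |γ - (ζ y - ζ x)| ≤ θ * ((G.ed e).l + 4 * (P.β + 1) * P.ρ ^ i : ℕ) := by
  obtain ⟨x1, x2, x3, x4⟩ := hx
  obtain ⟨y1, y2, y3, y4⟩ := hy
  obtain ⟨a, a1, a2, a3, a4⟩ := X.slot x1 (slot_a he) (by rw [x2, vq_a])
  obtain ⟨b, b1, b2, b3, b4⟩ := X.slot y1 (slot_b he) (by rw [y2, vq_b])
  have hm : (e, a, b, meetL (rtF G.ed P C a) (rtF G.ed P C b)) ∈ T.obj :=
    (X.is.obj _).2 ⟨he, a1, b1, a2, b2, a3.trans x3, b3.trans y3, rfl⟩
  have h := ho _ hm rfl
  rw [← a4, X.rt_nm a1, hc] at x4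
  rw [← b4, X.rt_nm b1] at y4
  have hl := X.lam_le hm x4 y4
  rw [P.lv_nd hw (by omega)] at hl
  simp only at h hl
  rw [hζ a a1, hζ b b1, a4, b4] at h
  exact h.trans (mul_le_mul_of_nonneg_left (by exact_mod_cast hl) hθ)

theorem cpl_lev {i : ℕ} (hi : i ≤ P.D) {w : ℕ} (ha : Pad G P C i (G.ed e).a w)
    (hb : Pad G P C i (G.ed e).b w)
    (hc : (C i (w % P.s)).cen.get (G.ed e).a = (C i (w % P.s)).cen.get (G.ed e).b) :
    |γ - (Ya G P C ζ (G.ed e).b i w - Ya G P C ζ (G.ed e).a i w)| ≤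
      θ * ((i + 1) * ((4 * P.s) * (1 + 4 * (P.β + 1) * P.ρ)) * (G.ed e).l : ℕ) := by
  have hl := X.pos e he
  have hs := X.hP.s1
  have h2ρ := X.hP.ρ2
  have hB : ∀ {i : ℕ}, i ≤ P.D → ∀ {w : ℕ}, Pad G P C i (G.ed e).a w → Pad G P C i (G.ed e).b w →
      (C i (w % P.s)).cen.get (G.ed e).a = (C i (w % P.s)).cen.get (G.ed e).b →
      |γ - (Ya G P C ζ (G.ed e).b i w - Ya G P C ζ (G.ed e).a i w)| ≤
        θ * ((G.ed e).l + 4 * (P.β + 1) * P.ρ ^ i : ℕ) := fun {i} hi {w} ha hb hc =>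
    (X.hull ζ _ hi ha).pair (X.hull ζ _ hi hb) (by
      rintro _ _ ⟨x, hx, rfl⟩ ⟨y, hy, rfl⟩
      exact X.pairB hζ he hθ ho hi (val_lt X.hC X.hP ha.1 (by omega)) hc hx hy)
  have hκ : 1 + 4 * (P.β + 1) * P.ρ ≤ 4 * P.s * (1 + 4 * (P.β + 1) * P.ρ) :=
    Nat.le_mul_of_pos_left _ (by omega)
  induction i generalizing w with
  | zero =>
    refine (hB hi ha hb hc).trans (mul_le_mul_of_nonneg_left ?_ hθ)
    norm_cast
    rw [pow_zero, zero_add, one_mul]
    refine le_trans ?_ (Nat.mul_le_mul_right _ hκ)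
    have : 4 * (P.β + 1) * 1 ≤ 4 * (P.β + 1) * (P.ρ * (G.ed e).l) :=
      Nat.mul_le_mul_left _ (Nat.mul_pos (by omega) hl)
    nlinarith
  | succ i ih =>
    by_cases hr : P.ρ ^ i < (G.ed e).l
    · refine (hB hi ha hb hc).trans (mul_le_mul_of_nonneg_left ?_ hθ)
      norm_cast
      have h1 : (1 + 4 * (P.β + 1) * P.ρ) * (G.ed e).l ≤
          (i + 1 + 1) * (4 * P.s * (1 + 4 * (P.β + 1) * P.ρ)) * (G.ed e).l :=
        Nat.mul_le_mul_right _ (hκ.trans (Nat.le_mul_of_pos_left _ (by omega)))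
      refine le_trans ?_ h1
      have : 4 * (P.β + 1) * P.ρ * P.ρ ^ i ≤ 4 * (P.β + 1) * P.ρ * (G.ed e).l :=
        Nat.mul_le_mul_left _ hr.le
      rw [pow_succ']; nlinarith
    · rw [not_lt] at hr
      have hn : Near G (G.ed e).a (G.ed e).b (G.ed e).l := by
        have := Near.one (slot_a he)
        rwa [opp_a, vq_a, vq_b, show (3 * e + 1) / 3 = e by omega] at this
      have va := X.pad_mem hi ha
      have vb := X.pad_mem hi hb
      have hρ : (0 : ℝ) < ((P.ρ ^ i : ℕ) : ℝ) := by exact_mod_cast X.rho_pos i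
      have tv := tv_le (s := range P.s) (a := fun c => (phi G (C i c) (P.ρ ^ i) (G.ed e).a : ℝ))
        (b := fun c => (phi G (C i c) (P.ρ ^ i) (G.ed e).b : ℝ)) (l := (G.ed e).l)
        (fun _ _ => Nat.cast_nonneg _) (fun _ _ => Nat.cast_nonneg _) hρ (Nat.cast_nonneg _)
        (X.sum_phi (by omega) va) (X.sum_phi (by omega) vb)
        (fun c _ => by exact_mod_cast phi_lip hn) fun c _ => by exact_mod_cast phi_lip hn.symm
      rw [Ya, Ya]
      refine (coup (fun c _ => wt_nonneg i _ c) (fun c _ => wt_nonneg i _ c)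
        (X.sum_wt (by omega) va) (X.sum_wt (by omega) vb)
        (A := θ * ((i + 1) * ((4 * P.s) * (1 + 4 * (P.β + 1) * P.ρ)) * (G.ed e).l : ℕ))
        (B := θ * ((G.ed e).l + 4 * (P.β + 1) * P.ρ ^ (i + 1) : ℕ)) (by positivity) (by positivity)
        tv (fun c hc' p q => ?_) fun c hc' c' hc'' p q => ?_).trans ?_
      · have pa := pd_of_wt p
        have pb := pd_of_wt q
        have hc0 := mem_range.1 hc'
        refine ih (by omega) (X.pad_step (by omega) ha hc0 pa) (X.pad_step (by omega) hb hc0 pb) ?_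
        rw [code_mod hc0]; exact (pa _ _ hn hr).2.symm
      · have pa := pd_of_wt p
        have pb := pd_of_wt q
        have hc0 := mem_range.1 hc'
        have hc1 := mem_range.1 hc''
        refine (X.hull ζ _ (by omega) (X.pad_step (by omega) ha hc0 pa)).pair
          (X.hull ζ _ (by omega) (X.pad_step (by omega) hb hc1 pb)) ?_
        rintro _ _ ⟨x, hx, rfl⟩ ⟨y, hy, rfl⟩
        exact X.pairB hζ he hθ ho hi (val_lt X.hC X.hP ha.1 (by omega)) hc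
          (X.cp_step (by omega) ha hc0 pa hx) (X.cp_step (by omega) hb hc1 pb hy)
      · rw [card_range]
        have k1 : (((G.ed e).l + 4 * (P.β + 1) * P.ρ ^ (i + 1) : ℕ) : ℝ) ≤
            (1 + 4 * (P.β + 1) * P.ρ : ℕ) * ((P.ρ ^ i : ℕ) : ℝ) := by
          norm_cast; rw [pow_succ']; nlinarith
        have k2 : (P.s : ℝ) * (G.ed e).l / ((P.ρ ^ i : ℕ) : ℝ) *
            (θ * ((G.ed e).l + 4 * (P.β + 1) * P.ρ ^ (i + 1) : ℕ)) ≤
            θ * (P.s * (1 + 4 * (P.β + 1) * P.ρ : ℕ) * (G.ed e).l) := by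
          calc _ ≤ (P.s : ℝ) * (G.ed e).l / ((P.ρ ^ i : ℕ) : ℝ) *
              (θ * ((1 + 4 * (P.β + 1) * P.ρ : ℕ) * ((P.ρ ^ i : ℕ) : ℝ))) := by gcongr
            _ = _ := by field_simp
        refine (add_le_add_right k2 _).trans ?_
        rw [← mul_add]
        refine mul_le_mul_of_nonneg_left ?_ hθ
        norm_cast
        have : P.s * (1 + 4 * (P.β + 1) * P.ρ) * (G.ed e).l ≤
            4 * P.s * (1 + 4 * (P.β + 1) * P.ρ) * (G.ed e).l := by gcongr; omega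
        nlinarith

omit hζ he hθ ho

/-- **the coupling lemma** -/
theorem cpl (ζ : ℕ → ℝ) (hζ : ∀ x ∈ T.ord, ζ x = ζ (T.nm.get x)) : ∃ Y : ℕ → ℝ,
    (∀ e ∈ G.E, ∀ γ θ : ℝ, 0 ≤ θ →
      (∀ o ∈ T.obj, o.1 = e → |γ - (ζ o.2.2.1 - ζ o.2.1)| ≤ θ * T.lam G.ed o) →
        |γ - (Y (G.ed e).b - Y (G.ed e).a)| ≤ θ * P.al * (G.ed e).l) ∧
    ∀ (u v : ℕ) (γ B : ℝ), (∀ x ∈ T.cv P u, ∀ y ∈ T.cv P v, |γ - (ζ y - ζ x)| ≤ B) →
      |γ - (Y v - Y u)| ≤ B := by
  classical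
  refine ⟨fun v => if v ∈ V then Ya G P C ζ v P.D 0 else ζ (P.nw v), fun e he γ θ hθ ho => ?_,
    fun u v γ B h => ?_⟩
  · have va : (G.ed e).a ∈ V := (X.hV.2 _).2 ⟨_, slot_a he, vq_a _ _⟩
    have vb : (G.ed e).b ∈ V := (X.hV.2 _).2 ⟨_, slot_b he, vq_b _ _⟩
    simp only [if_pos va, if_pos vb]
    have := X.cpl_lev hζ he hθ ho le_rfl (X.pad_top va) (X.pad_top vb)
      (by rw [Nat.zero_mod]; exact X.hC.2.2.2 e he)
    refine this.trans (le_of_eq ?_)
    rw [Pm.al]; push_cast; ring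
  · have key : ∀ v, Hull (fun a => ∃ x ∈ T.cv P v, a = ζ x)
        (if v ∈ V then Ya G P C ζ v P.D 0 else ζ (P.nw v)) := by
      intro v
      split_ifs with hv
      · refine (X.hull ζ v le_rfl (X.pad_top hv)).mono ?_
        rintro a ⟨x, hx, rfl⟩
        have hm : x ∈ T.cop.get v := ((X.is.cop v).2 x).2 ⟨hx.1, hx.2.1, hx.2.2.1⟩
        exact ⟨x, by rw [LF.cv, if_neg (List.ne_nil_of_mem hm)]; exact hm, rfl⟩
      · refine Hull.self ⟨_, ?_, rfl⟩
        have : T.cop.get v = [] := List.eq_nil_iff_forall_not_mem.2 fun x hx => hv (by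
          obtain ⟨h1, h2, _⟩ := ((X.is.cop v).2 x).1 hx
          have := X.col h1
          rw [h2, vq_main] at this
          exact this.1.sub _ this.2)
        rw [LF.cv, if_pos this]; exact List.mem_singleton_self _
    refine (key u).pair (key v) ?_
    rintro _ _ ⟨x, hx, rfl⟩ ⟨y, hy, rfl⟩
    exact h x hx y hy

end Cx

end Crest.Agent.N325.Lt
private theorem rz_15992871dc : type_of% @_root_.Crest.Agent.N325.Lt.Ya.eq_def := @_root_.Crest.Agent.N325.Lt.Ya.eq_def -- L22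
private theorem rz_d78b4107ba : type_of% @_root_.Crest.Agent.N325.Lt.Ya.eq_1 := @_root_.Crest.Agent.N325.Lt.Ya.eq_1 -- L22
end

-- ▼ part N325/Lt/Ok

/-!
# Row 325 (helper91): the concrete lifted forest satisfies the interface
-/

set_option autoImplicit false
open Finset

namespace Crest.Agent.N325.Lt
open Tw

variable {G : Gr} {V : List ℕ} {P : Pm} {C : ℕ → ℕ → Col} {pv : ℕ → ℕ} {T : LF} {c : Bd}

/-- **`Is → Ok`** -/
theorem LF.Is.ok (h : T.Is G P C pv) (hP : P.Ok) (hV : Vtx G V) (hC : Covers G V P C)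
    (hp : Chain G pv) (hG : G.Ok c) : T.Ok G P c.m c.nb := by
  have X : Cx G V P C pv T := ⟨hV, hC, hp, hP, pos_of_ok hG, h⟩
  refine ⟨h.nd, h.pl, h.cnt_len hP hV hC hG, h.cnt_idb hP hV hC hG, h.cnt_kids hP hC hp,
    fun x hx hr => ?_, fun x hx a ha => ?_, fun x hx hn => ?_, fun x hx => X.tel hx,
    fun x hx => X.grad hx, fun x hx => X.Hb hx, fun x hx => ?_, fun x hx => X.cl_spec hx,
    fun e => ⟨(h.tc e).1, h.cnt_tc hP hC e, (h.tc e).2⟩,
    fun v => ⟨(h.cop v).1, h.cnt_cop hP v, fun x hx => ?_⟩, X.nw_not_mem, h.cnt_olen hP hG,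
    h.cnt_oe hP, h.cnt_oa hP, fun o ho => ?_, X.cpl⟩
  · refine ⟨?_, by rw [h.hH x hx, if_pos hr], by rw [h.hG x hx, if_pos hr]⟩
    rcases X.pc hx with k | k | k | k
    · exact k.2.2.2.2.1
    · exact absurd hr k.2.2.2.2.2.2.2
    · exact k.2.2.2.2.2.2.1
    · exact k.2.2.2.2.1
  · rcases X.pc hx with k | k | k | k
    · rw [k.2.2.2.2.1] at ha; cases ha
    · obtain ⟨h0, hc, _, _, _, h4, h5, _⟩ := k
      have hk := X.col hx
      rw [vq_of_main _ h0] at hk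
      rw [h4, Option.mem_def, Option.some.injEq] at ha
      subst ha
      exact ⟨(hk.1.tree _ hk.2 hc).1.2, h5⟩
    · rw [k.2.2.2.2.2.2.1] at ha; cases ha
    · rw [k.2.2.2.2.1] at ha; cases ha
  · rcases X.pc hx with k | k | k | k
    · obtain ⟨hs, h1, h2, h3, _, h5, _⟩ := k
      exact Or.inr ⟨h5, (X.nm_slot hx hs h1 h2 h3).symm⟩
    · rw [k.2.2.2.2.2.1] at hn; cases hn
    · exact Or.inl k.2.2.2.2.2.2.2.1
    · rw [k.2.2.2.1]; exact Or.inr ⟨rfl, rfl⟩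
  · have hn := X.nm_mem hx
    have h1 := (X.ps_nm hx).1
    obtain ⟨a1, a2, a3, a4⟩ := X.nm_anc x hx
    refine ⟨hn, X.nm_main hn (by omega), by rw [h1, vq_main], by omega, a1, a2, a3, ?_, a4⟩
    rw [h.cl x hx, h.nm x hx]; exact List.mem_cons_self
  · obtain ⟨h1, h2, _⟩ := ((h.cop v).2 x).1 hx
    exact ⟨h1, X.nm_main h1 (by omega), h2⟩
  · obtain ⟨h1, h2, h3, h4, h5, _⟩ := (h.obj o).1 ho
    exact ⟨h1, h2, h3, h4, h5, X.obj_spec ho⟩

/-- the gradient potential is bounded by the height -/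
theorem LF.Ok.G_le {m nb : ℕ} (h : T.Ok G P m nb) (hG : G.Ok c) :
    ∀ x ∈ T.ord, (T.G.get x).natAbs ≤ T.H.get x * c.gb := by
  refine h.pl.ind fun x hx ih => ?_
  by_cases hr : T.par.get x = x
  · rw [(h.root x hx hr).2.2]; exact Nat.zero_le _
  · have i := ih hr
    have hg := h.grad x hx
    rcases he : T.pe.get x with _ | a
    · rw [he] at hg
      have : T.H.get (T.par.get x) ≤ T.H.get x := by rcases h.dum x hx he with k | k <;> omega
      simp only [Option.toList_none, wg, wsum, List.map_nil, List.sum_nil, add_zero] at hg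
      rw [hg]; exact i.trans (Nat.mul_le_mul_right _ this)
    · obtain ⟨k1, k2⟩ := h.real x hx a he
      obtain ⟨_, _, _, b4, _, b6⟩ := hG.2.2 _ k1
      rw [he] at hg
      simp only [Option.toList_some, wg, wsum, List.map_cons, List.map_nil, List.sum_cons,
        List.sum_nil, add_zero] at hg
      have e : (sg a.2 * (G.ed a.1).g).natAbs = (G.ed a.1).g.natAbs := by
        unfold sg; split_ifs <;> simp
      have := Int.natAbs_add_le (T.G.get (T.par.get x)) (sg a.2 * (G.ed a.1).g)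
      rw [hg, k2, add_mul]
      have : c.gb ≤ (G.ed a.1).l * c.gb := Nat.le_mul_of_pos_left _ b4
      omega

end Crest.Agent.N325.Lt
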