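import Crest.Agent.N325.Lt.Code
import Crest.Agent.N325.Lt.Rp
import Crest.Agent.N325.Lt.Cnt
import Crest.Agent.N325.Lt.Str
import Crest.Agent.N325.Lst.ListR
import Crest.Agent.N325.Lt.Defs
import Crest.Agent.N325.Dj.Dij
import Crest.Agent.N325.Dj.Impl
import Crest.Agent.N325.Lst.ListImpl
import Crest.Agent.N325.Lt.Ok

-- ▼ part N325/Lt/Obj
section

/-! Row 325 (helper16): tree copies, main copies and objects of the lifted forest. -/

set_option autoImplicit false

namespace Crest.Agent.N325.Lt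
open Tw

/-- the part of `LF.Is` about the nodes -/
structure LF.Pre (G : Gr) (P : Pm) (C : ℕ → ℕ → Col) (pv : ℕ → ℕ) (T : LF) : Prop where
  nd : T.ord.Nodup
  mem : ∀ x, x ∈ T.ord ↔ Node G P C x
  pl : PL T.par.get T.ord
  par : ∀ x ∈ T.ord, T.par.get x = parF P C pv x
  pe : ∀ x ∈ T.ord, T.pe.get x = peF P C x
  hH : ∀ x ∈ T.ord, T.H.get x =
    if T.par.get x = x then 0 else T.H.get (T.par.get x) + hlF G.ed P C x
  hG : ∀ x ∈ T.ord, T.G.get x =
    if T.par.get x = x then 0 else T.G.get (T.par.get x) + wg G.ed (T.pe.get x).toList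
  nm : ∀ x ∈ T.ord, T.nm.get x = nmF G.ed P x
  cl : ∀ x ∈ T.ord, T.cl.get x = nmF G.ed P x :: rtF G.ed P C x

/-- one step of `meetL` -/
def meetS (a : ℕ) (s : List ℕ × ℕ) : List ℕ × ℕ :=
  List.casesOn s.1 s fun b r => if a = b then ([], a) else (r, s.2)

/-- the first common entry -/
def meetR (l l' : List ℕ) : R ℕ := foldP meetS l (l', 0) >>= fun s => pure s.2

/-- the object of the edge `p` with ends `x`, `y` -/
def obR (T : LF) (p : ℕ × Ed) (x y : ℕ) : R (ℕ × ℕ × ℕ × ℕ) := do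
  let z ← meetR (T.cl.get x).tail (T.cl.get y).tail
  pure (p.1, x, y, z)

/-- all objects (`A` = the nodes of level `0` by position) -/
def obsR (T : LF) (A : Arr (List ℕ)) (l : List (ℕ × Ed)) : R (List (ℕ × ℕ × ℕ × ℕ)) :=
  flatMapL (fun p => flatMapL (fun x => mapL (obR T p x) (A.get (3 * p.1 + 2)))
    (A.get (3 * p.1 + 1))) l

/-- **fills `tc`, `cop`, `obj`** -/
def objR (P : Pm) (l : List (ℕ × Ed)) (T : LF) : R LF := do
  let a ← filterP (fun x => (T.pe.get x).isSome) T.ord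
  let tc ← bucketP (fun x => ((T.pe.get x).getD (0, false)).1) a (Arr.cst [])
  let b ← filterP (fun x => decide (P.lv x = 0)) T.ord
  let A ← bucketP (fun x => P.ps x) b (Arr.cst [])
  let c ← filterP (fun x => decide (P.ps x % 3 = 0)) b
  let cop ← bucketP (fun x => P.ps x / 3) c (Arr.cst [])
  let o ← obsR T A l
  pure ⟨T.ord, T.par, T.pe, T.H, T.G, T.nm, T.cl, tc, cop, o⟩

variable {g : Gl}

theorem foldl_meetS (l l' : List ℕ) :
    (l.foldl (fun s a => meetS a s) (l', 0)).2 = meetL l l' := by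
  have h : ∀ (l : List ℕ) (x : ℕ), l.foldl (fun s a => meetS a s) ([], x) = ([], x) := by
    intro l x
    induction l with
    | nil => rfl
    | cons a l ih => exact ih
  induction l generalizing l' with
  | nil => simp [meetL]
  | cons a l ih =>
    cases l' with
    | nil => rw [h]; simp [meetL]
    | cons b r =>
      rw [List.foldl_cons, meetL]
      by_cases e : a = b
      · rw [show meetS a (b :: r, 0) = ([], a) from if_pos e, h, if_pos e]
      · rw [show meetS a (b :: r, 0) = (r, 0) from if_neg e, ih, if_neg e]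

theorem sp_meetR (l l' : List ℕ) :
    Sp g (meetR l l') fun r t => r = meetL l l' ∧ t = l.length + 1 :=
  (sp_foldP _ l _).bind fun r t h => ⟨by rw [h.1, foldl_meetS], h.2⟩

theorem obj_length_rts (P : Pm) (C : ℕ → ℕ → Col) (j i v w : ℕ) : (rts P C j i v w).length = j := by
  induction j generalizing i v w with
  | zero => rfl
  | succ j ih => rw [rts, List.length_cons, ih]

theorem obj_nodup_flatMap {α β γ : Type} {l : List α} {f : α → List β} (k : β → γ) (k' : α → γ)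
    (h : (l.map k').Nodup) (hf : ∀ a ∈ l, (f a).Nodup ∧ ∀ b ∈ f a, k b = k' a) :
    (l.flatMap f).Nodup :=
  List.nodup_flatMap.2 ⟨fun a ha => (hf a ha).1, (List.pairwise_map.1 h).imp_of_mem
    fun {a b} ha hb n x hx hy => n (((hf a ha).2 x hx).symm.trans ((hf b hb).2 x hy))⟩

theorem obj_sum_le {α : Type} {l : List α} {f : α → ℕ} {c : ℕ} (h : ∀ a ∈ l, f a ≤ c) :
    (l.map f).sum ≤ l.length * c := by
  simpa using List.sum_le_card_nsmul (l.map f) c (by simpa using h)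

/-- the value of `obR` -/
def obF (T : LF) (p : ℕ × Ed) (x y : ℕ) : ℕ × ℕ × ℕ × ℕ :=
  (p.1, x, y, meetL (T.cl.get x).tail (T.cl.get y).tail)

theorem sp_obsR {T : LF} {A : Arr (List ℕ)} {l : List (ℕ × Ed)} {S D : ℕ}
    (hA : ∀ p, (A.get p).length ≤ S ∧ ∀ x ∈ A.get p, (T.cl.get x).tail.length ≤ D + 1)
    (hS : 1 ≤ S) :
    Sp g (obsR T A l) fun r t => (r = l.flatMap fun p => (A.get (3 * p.1 + 1)).flatMap fun x =>
      (A.get (3 * p.1 + 2)).map (obF T p x)) ∧ t ≤ l.length * ((D + 16) * S ^ 2) + 2 := by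
  have hlen : ∀ p : ℕ × Ed, ((A.get (3 * p.1 + 1)).flatMap fun x =>
      (A.get (3 * p.1 + 2)).map (obF T p x)).length ≤ S * S := fun p => by
    rw [List.length_flatMap]
    exact (obj_sum_le fun x _ => by rw [List.length_map]; exact (hA _).1).trans
      (Nat.mul_le_mul_right _ (hA _).1)
  refine (sp_flatMapL (fun p => (A.get (3 * p.1 + 1)).flatMap fun x =>
      (A.get (3 * p.1 + 2)).map (obF T p x))
    (fun _ => S * (S * (D + 2) + 2 * S + 2) + 2 * (S * S) + 2 * S + 2)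
    fun p hp => (sp_flatMapL (fun x => (A.get (3 * p.1 + 2)).map (obF T p x))
      (fun _ => S * (D + 2) + 2 * S + 2) fun x hx =>
      (sp_mapL' (obF T p x) (fun _ => D + 2) fun y hy => ?_).mono ?_).mono ?_).mono ?_
  · have := (hA _).2 x hx
    exact (sp_meetR _ _).bind fun z t h => ⟨by rw [h.1]; rfl, by omega⟩
  · refine fun r t h => ⟨h.1, h.2.trans ?_⟩
    have := (hA (3 * p.1 + 2)).1
    have := (obj_sum_le (l := A.get (3 * p.1 + 2)) (f := fun _ => D + 2) fun _ _ => le_rfl).trans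
      (Nat.mul_le_mul_right _ this)
    omega
  · refine fun r t h => ⟨h.1, h.2.trans ?_⟩
    have := (hA (3 * p.1 + 1)).1
    have := (obj_sum_le (l := A.get (3 * p.1 + 1)) (f := fun _ => S * (D + 2) + 2 * S + 2)
      fun _ _ => le_rfl).trans (Nat.mul_le_mul_right _ this)
    have := hlen p
    omega
  · refine fun r t h => ⟨h.1, h.2.trans ?_⟩
    have h1 := obj_sum_le (l := l) (f := fun _ => S * (S * (D + 2) + 2 * S + 2) + 2 * (S * S) +
      2 * S + 2) fun _ _ => le_rfl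
    have h2 := obj_sum_le (l := l) fun p _ => hlen p
    rw [← List.length_flatMap] at h2
    have h3 : S * (S * (D + 2) + 2 * S + 2) + 2 * (S * S) + 2 * S + 2 + 2 * (S * S) + 2 ≤
        (D + 16) * S ^ 2 := by nlinarith
    have h4 := Nat.mul_le_mul_left l.length h3
    rw [mul_add, mul_add, mul_left_comm _ 2] at h4
    omega

/-- few nodes share position and level -/
theorem obj_length_le_S {P : Pm} (hP : P.Ok) {L : List ℕ} (hn : L.Nodup) {p i : ℕ}
    (h : ∀ x ∈ L, P.ps x = p ∧ P.lv x = i) : L.length ≤ P.S := by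
  have := (List.subperm_of_subset (l₂ := List.range P.S) (hn.map_on (f := P.cd) fun x hx y hy e =>
    P.ext ((h x hx).1.trans (h y hy).1.symm) ((h x hx).2.trans (h y hy).2.symm) e)
    fun c hc => by
      obtain ⟨x, -, rfl⟩ := List.mem_map.1 hc
      exact List.mem_range.2 (Pm.cd_lt hP x)).length_le
  simpa using this

theorem sp_objR {G : Gr} {P : Pm} {C : ℕ → ℕ → Col} {pv : ℕ → ℕ} {T : LF}
    {l : List (ℕ × Ed)} (hP : P.Ok) (hl : Enum G l) (h : T.Pre G P C pv) :
    Sp g (objR P l T) fun r t => r.Is G P C pv ∧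
      t ≤ 9 * (T.ord.length + 1) + l.length * ((P.D + 16) * P.S ^ 2) + 2 := by
  refine (sp_filterP _ _).bind fun a t1 ⟨ha, k1⟩ => (sp_bucketP _ _ _).bind fun tc t2 ⟨htc, k2⟩ =>
    (sp_filterP _ _).bind fun b t3 ⟨hb, k3⟩ => (sp_bucketP _ _ _).bind fun A t4 ⟨hA, k4⟩ =>
    (sp_filterP _ _).bind fun d t5 ⟨hd, k5⟩ => (sp_bucketP _ _ _).bind fun cop t6 ⟨hc, k6⟩ => ?_
  have mA : ∀ p x, x ∈ A.get p ↔ x ∈ T.ord ∧ P.ps x = p ∧ P.lv x = 0 := fun p x => by
    simp only [hA, hb, Arr.get_cst, List.append_nil, List.mem_reverse, List.mem_filter,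
      decide_eq_true_eq]
    tauto
  have nA : ∀ p, (A.get p).Nodup := fun p => by
    simpa [hA, hb] using (h.nd.filter _).filter _
  have hE : ∀ p ∈ l, p.1 ∈ G.E := fun p hp => (hl.2.1 _).2 (List.mem_map_of_mem hp)
  refine (sp_obsR (S := P.S) (D := P.D) (fun p =>
    ⟨obj_length_le_S hP (nA p) fun x hx => ((mA p x).1 hx).2, fun x hx => ?_⟩) hP.S_pos).bind fun o t7 ⟨ho, k7⟩ => ⟨?_, ?_⟩
  · rw [h.cl x ((mA p x).1 hx).1, List.tail_cons, rtF, obj_length_rts]; omega
  · refine ⟨h.nd, h.mem, h.pl, h.par, h.pe, h.hH, h.hG, h.nm, h.cl, fun e => ⟨?_, fun x => ?_⟩,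
      fun v => ⟨?_, fun x => ?_⟩, ?_, fun q => ?_⟩
    · simpa [htc, ha] using (h.nd.filter _).filter _
    · simp only [htc, ha, Arr.get_cst, List.append_nil, List.mem_reverse, List.mem_filter,
        decide_eq_true_eq, and_assoc]
      refine and_congr_right fun _ => ?_
      rcases T.pe.get x with _ | ⟨e', b⟩ <;> simp
    · simpa [hc, hd, hb] using ((h.nd.filter _).filter _).filter _
    · simp only [hc, hd, hb, Arr.get_cst, List.append_nil, List.mem_reverse, List.mem_filter,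
        decide_eq_true_eq, and_assoc]
      exact and_congr_right fun _ => by omega
    · rw [ho]
      refine obj_nodup_flatMap Prod.fst Prod.fst hl.1 fun p _ => ⟨obj_nodup_flatMap
        (fun o => o.2.1) id (by simpa using nA _) fun x _ => ⟨(nA _).map_on fun y _ z _ e =>
          congrArg (fun o => o.2.2.1) e, fun o ho => ?_⟩, fun o ho => ?_⟩
      · obtain ⟨y, -, rfl⟩ := List.mem_map.1 ho; rfl
      · obtain ⟨x, -, hx⟩ := List.mem_flatMap.1 ho
        obtain ⟨y, -, rfl⟩ := List.mem_map.1 hx; rfl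
    · simp only [ho, List.mem_flatMap, List.mem_map, mA]
      constructor
      · rintro ⟨p, hp, x, ⟨x1, x2, x3⟩, y, ⟨y1, y2, y3⟩, rfl⟩
        refine ⟨hE p hp, x1, y1, x2, y2, x3, y3, ?_⟩
        simp only [obF, h.cl x x1, h.cl y y1, List.tail_cons]
      · rintro ⟨e, x1, y1, x2, y2, x3, y3, k⟩
        obtain ⟨p, hp, e'⟩ := List.mem_map.1 ((hl.2.1 _).1 e)
        refine ⟨p, hp, _, ⟨x1, e' ▸ x2, x3⟩, _, ⟨y1, e' ▸ y2, y3⟩, ?_⟩
        simp only [obF, h.cl _ x1, h.cl _ y1, List.tail_cons, e', ← k]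
  · have := ha ▸ List.length_filter_le _ T.ord
    have := hb ▸ List.length_filter_le _ T.ord
    have := hd ▸ List.length_filter_le _ b
    omega

variable {α : Type} [Rp α]

@[fun_prop] theorem impl_meetR {l l' : α → List ℕ} (h1 : Pu true l) (h2 : Pu true l') :
    Impl fun a => meetR (l a) (l' a) := by impl

@[fun_prop] theorem impl_obsR {T : α → LF} {A : α → Arr (List ℕ)} {l : α → List (ℕ × Ed)}
    (h1 : Pu true T) (h2 : Pu true A) (h3 : Pu true l) : Impl fun a => obsR (T a) (A a) (l a) := by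
  impl

@[fun_prop] theorem impl_objR {P : α → Pm} {l : α → List (ℕ × Ed)} {T : α → LF}
    (h1 : Pu true P) (h2 : Pu true l) (h3 : Pu true T) : Impl fun a => objR (P a) (l a) (T a) := by
  impl

end Crest.Agent.N325.Lt
end

-- ▼ part N325/Lt/Fill
section

/-!
# Row 325 (helper29): the fields of the nodes of the lifted forest
-/

set_option autoImplicit false

namespace Crest.Agent.N325.Lt
open Tw

/-- the gradient of the link to the parent -/
def geF (ed : ℕ → Ed) (P : Pm) (C : ℕ → ℕ → Col) (x : ℕ) : ℤ :=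
  if P.ps x % 3 = 0 ∧ (colF P C x).cen.get (P.ps x / 3) ≠ P.ps x / 3 then
    (if (colF P C x).pq.get (P.ps x / 3) % 3 = 1 then (ed ((colF P C x).pq.get (P.ps x / 3) / 3)).g
      else -(ed ((colF P C x).pq.get (P.ps x / 3) / 3)).g)
  else 0

/-- the level roots from those of the parent -/
def rtS (P : Pm) (C : ℕ → ℕ → Col) (x : ℕ) (l : List ℕ) : List ℕ :=
  if P.ps x % 3 = 0 ∧ (colF P C x).cen.get (P.ps x / 3) = P.ps x / 3 then
    (if P.lv x = P.D then [x] else x :: l)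
  else l

/-- one node -/
def fill1 (P : Pm) (ed : Arr Ed) (pv : Arr ℕ) (C : Arr (Arr Col)) (x : ℕ) (T : LF) : R LF :=
  nat (parF P (fun i j => (C.get i).get j) (fun q => pv.get q) x) >>= fun p =>
  nat (if p = x then 0 else T.H.get p + hlF ed.get P (fun i j => (C.get i).get j) x) >>= fun h =>
  int (if p = x then 0 else T.G.get p + geF ed.get P (fun i j => (C.get i).get j) x) >>= fun γ =>
  nat (nmF ed.get P x) >>= fun n =>
  pure ⟨T.ord, T.par.set x p, T.pe.set x (peF P (fun i j => (C.get i).get j) x), T.H.set x h,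
    T.G.set x γ, T.nm.set x n,
    T.cl.set x (n :: rtS P (fun i j => (C.get i).get j) x (T.cl.get p).tail), T.tc, T.cop, T.obj⟩

/-- **all nodes**, parents first -/
def fillR (P : Pm) (ed : Arr Ed) (pv : Arr ℕ) (C : Arr (Arr Col)) (ord : List ℕ) : R LF :=
  revL ord >>= fun r => foldL (fill1 P ed pv C) r ⟨ord, Arr.cst 0, Arr.cst none, Arr.cst 0,
    Arr.cst 0, Arr.cst 0, Arr.cst [], Arr.cst [], Arr.cst [], []⟩

variable {G : Gr} {c : Bd} {V : List ℕ} {P : Pm} {C : ℕ → ℕ → Col} {pv : ℕ → ℕ} {x : ℕ} {g : Gl}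

theorem pl_congr {par par' : ℕ → ℕ} {l : List ℕ} (h : PL par l) (e : ∀ x ∈ l, par' x = par x) :
    PL par' l := by
  induction l with
  | nil => trivial
  | cons a l ih =>
    exact ⟨by rw [e a List.mem_cons_self]; exact h.1, ih h.2 fun x hx => e x (by simp [hx])⟩

theorem pl_suffix {par : ℕ → ℕ} {l l' : List ℕ} (h : PL par (l ++ l')) : PL par l' := by
  induction l with
  | nil => exact h
  | cons a l ih => exact ih h.2

theorem geF_eq (ed : ℕ → Ed) : geF ed P C x = wg ed (peF P C x).toList := by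
  unfold geF peF
  split_ifs with h k <;> simp [wg, wsum, sg, *]

theorem Node.slot_pq (h : Node G P C x) (hP : P.Ok) (hC : Covers G V P C) (h0 : P.ps x % 3 = 0)
    (hc : (colF P C x).cen.get (P.ps x / 3) ≠ P.ps x / 3) :
    Slot G ((colF P C x).pq.get (P.ps x / 3)) ∧
      (colF P C x).cen.get (vq G.ed ((colF P C x).pq.get (P.ps x / 3))) =
        (colF P C x).cen.get (vq G.ed (P.ps x)) := by
  obtain ⟨⟨_, k⟩, m⟩ := h.colOk hP hC
  rw [vq_of_main _ h0] at m ⊢
  exact ⟨(k.tree _ m hc).1, (k.tree _ m hc).2.2.2.1⟩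

theorem Node.rtS (h : Node G P C x) (hP : P.Ok) (hC : Covers G V P C) (hp : Chain G pv)
    {l : List ℕ} (hl : parF P C pv x ≠ x → l = rtF G.ed P C (parF P C pv x)) :
    rtS P C x l = rtF G.ed P C x := by
  have hw := Pm.cd_lt hP x
  have hl' := P.lv_lt x
  have hD := h.1
  unfold Lt.rtS
  unfold parF at hl
  by_cases h3 : P.ps x % 3 ≠ 0
  · have hs : Slot G (P.ps x) := h.2.1.resolve_left h3
    rw [if_pos h3] at hl
    rw [if_neg fun k => h3 k.1, hl fun k => (hp.1 _ hs).2.2 (by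
      conv_rhs => rw [← k, P.ps_nd hw hl'])]
    simp only [rtF, P.ps_nd hw hl', P.lv_nd hw hl', P.cd_nd hw, (hp.1 _ hs).2.1]
  · have h0 : P.ps x % 3 = 0 := by omega
    rw [if_neg h3] at hl
    by_cases hc : (colF P C x).cen.get (P.ps x / 3) ≠ P.ps x / 3
    · obtain ⟨s, e⟩ := h.slot_pq hP hC h0 hc
      rw [if_pos hc] at hl
      rw [if_neg fun k => hc k.2, hl fun k => s.1 (by
        rw [← P.ps_nd (p := (colF P C x).pq.get (P.ps x / 3)) hw hl', k]; exact h0)]
      simp only [rtF, P.ps_nd hw hl', P.lv_nd hw hl', P.cd_nd hw]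
      exact rts_congr e
    · have hc' := not_not.1 hc
      have e : P.nd (3 * (C (P.lv x) (P.cd x % P.s)).cen.get (P.ps x / 3)) (P.lv x) (P.cd x) = x := by
        rw [show (C (P.lv x) (P.cd x % P.s)).cen.get (P.ps x / 3) = P.ps x / 3 from hc',
          show 3 * (P.ps x / 3) = P.ps x by omega, P.nd_eta]
      rw [if_neg hc] at hl
      rw [if_pos ⟨h0, hc'⟩, rtF, show P.D + 1 - P.lv x = P.D - P.lv x + 1 by omega, rts,
        vq_of_main _ h0, e]
      split_ifs with hD'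
      · rw [hD', Nat.sub_self, rts]
      · have hw' : P.cd x / P.s < P.S := (Nat.div_le_self _ _).trans_lt hw
        have hl2 : P.lv x + 1 < P.D + 2 := by omega
        rw [if_neg hD'] at hl
        rw [hl fun k => by have := congrArg P.lv k; rw [P.lv_nd hw' hl2] at this; omega]
        simp only [rtF, P.ps_nd hw' hl2, P.lv_nd hw' hl2, P.cd_nd hw', vq_of_main _ h0]
        rw [show (C (P.lv x) (P.cd x % P.s)).cen.get (P.ps x / 3) = P.ps x / 3 from hc',
          show P.D + 1 - (P.lv x + 1) = P.D - P.lv x by omega]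

theorem Node.nm (h : Node G P C x) (hP : P.Ok) : Node G P C (nmF G.ed P x) := by
  have hw := Pm.cd_lt hP x
  have hl := P.lv_lt x
  unfold Node nmF
  rw [P.ps_nd hw hl, P.lv_nd hw hl, P.cd_nd hw, vq_main]
  exact ⟨h.1, .inl (by omega), h.2.2⟩

theorem Node.ed_congr (h : Node G P C x) (hP : P.Ok) (hC : Covers G V P C) (hG : G.Ok c)
    {ed : ℕ → Ed} (he : ∀ e ∈ G.E, ed e = G.ed e) :
    hlF ed P C x = hlF G.ed P C x ∧ geF ed P C x = geF G.ed P C x ∧ nmF ed P x = nmF G.ed P x ∧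
      hlF G.ed P C x ≤ c.lb + 1 ∧ (geF G.ed P C x).natAbs ≤ c.gb := by
  by_cases h0 : P.ps x % 3 = 0
  · have e : nmF ed P x = nmF G.ed P x := by simp only [nmF, vq_of_main _ h0]
    by_cases hc : (colF P C x).cen.get (P.ps x / 3) ≠ P.ps x / 3
    · have s := (h.slot_pq hP hC h0 hc).1.2
      have b := hG.2.2 _ s
      simp only [hlF, geF, h0, hc, he _ s, e, ne_eq, not_true, not_false_iff, and_self, if_true,
        if_false, true_and]
      refine ⟨b.2.2.2.2.1.trans (Nat.le_succ _), ?_⟩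
      split_ifs
      · exact b.2.2.2.2.2
      · rw [Int.natAbs_neg]; exact b.2.2.2.2.2
    · simp [hlF, geF, h0, hc, e]
  · have s := (h.2.1.resolve_left h0).2
    simp [hlF, geF, h0, nmF, vq, he _ s]

/-- the fields at `x` -/
def Fl (G : Gr) (P : Pm) (C : ℕ → ℕ → Col) (pv : ℕ → ℕ) (T : LF) (x : ℕ) : Prop :=
  T.par.get x = parF P C pv x ∧ T.pe.get x = peF P C x ∧
    T.H.get x = (if parF P C pv x = x then 0 else T.H.get (parF P C pv x) + hlF G.ed P C x) ∧
    T.G.get x = (if parF P C pv x = x then 0 else T.G.get (parF P C pv x) + geF G.ed P C x) ∧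
    T.nm.get x = nmF G.ed P x ∧ T.cl.get x = nmF G.ed P x :: rtF G.ed P C x

theorem sp_fillR {ed : Arr Ed} {pv : Arr ℕ} {C : Arr (Arr Col)} {ord : List ℕ} (hP : P.Ok)
    (hC : Covers G V P fun i j => (C.get i).get j) (hp : Chain G pv.get) (hG : G.Ok c)
    (he : ∀ e ∈ G.E, ed.get e = G.ed e) (nd : ord.Nodup)
    (mem : ∀ x, x ∈ ord ↔ Node G P (fun i j => (C.get i).get j) x)
    (pl : PL (parF P (fun i j => (C.get i).get j) pv.get) ord) (hX : ∀ x ∈ ord, x ≤ g.X)
    (hH : ord.length * (c.lb + 1) ≤ g.X) (hg : ord.length * c.gb ≤ g.X) :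
    Sp g (fillR P ed pv C ord) fun T t => T.Pre G P (fun i j => (C.get i).get j) pv.get ∧
      T.ord = ord ∧ t ≤ 2 * ord.length + 2 := by
  set C' := fun i j => (C.get i).get j with hC'
  refine (sp_revL ord).bind fun r t0 ⟨e0, c0⟩ => (sp_foldL' (fun l (T : LF) => T.ord = ord ∧
    ∃ dn, ord = l.reverse ++ dn ∧ ∀ x ∈ dn, Fl G P C' pv.get T x ∧
      T.H.get x ≤ dn.length * (c.lb + 1) ∧ (T.G.get x).natAbs ≤ dn.length * c.gb) (fun _ => 0)
    (fun a l T ⟨k0, dn, k1, k2⟩ => ?_) ⟨rfl, [], by simp [e0], by simp⟩).mono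
      fun T t ⟨⟨k0, dn, k1, k2⟩, c1⟩ => ⟨?_, k0, by simp [e0] at c1; omega⟩
  · rw [List.reverse_cons, List.append_assoc, List.singleton_append] at k1
    have ao : a ∈ ord := by simp [k1]
    have pl' : PL (parF P C' pv.get) (a :: dn) := pl_suffix (k1 ▸ pl)
    have an : a ∉ dn := (List.nodup_cons.1 (List.nodup_append.1 (k1 ▸ nd)).2.1).1
    have na := (mem a).1 ao
    obtain ⟨e1, e2, e3, b1, b2⟩ := na.ed_congr hP hC hG he
    have ln : dn.length + 1 ≤ ord.length := by rw [k1]; simp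
    have l1 := Nat.mul_le_mul_right (c.lb + 1) ln
    have l2 := Nat.mul_le_mul_right c.gb ln
    have pd : parF P C' pv.get a ≠ a → parF P C' pv.get a ∈ dn := pl'.1.resolve_left
    have hh : (if parF P C' pv.get a = a then 0 else T.H.get (parF P C' pv.get a) +
        hlF G.ed P C' a) ≤ (dn.length + 1) * (c.lb + 1) := by
      split_ifs with q
      · exact Nat.zero_le _
      · have := (k2 _ (pd q)).2.1; rw [add_mul]; omega
    have gg : (if parF P C' pv.get a = a then 0 else T.G.get (parF P C' pv.get a) +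
        geF G.ed P C' a).natAbs ≤ (dn.length + 1) * c.gb := by
      split_ifs with q
      · exact Nat.zero_le _
      · have := (k2 _ (pd q)).2.2; rw [add_mul]; omega
    simp only [fill1, sp_bind, sp_nat, sp_int, sp_pure]
    rw [show (fun q => pv.get q) = pv.get from rfl, ← hC', e1, e2, e3]
    refine ⟨hX _ (pl.par_mem ao), hh.trans (l1.trans hH), gg.trans (l2.trans hg),
      hX _ ((mem _).2 (na.nm hP)), ⟨k0, a :: dn, k1, fun x hx => ?_⟩, le_rfl⟩
    rcases List.mem_cons.1 hx with rfl | hx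
    · simp only [Fl, Arr.get_set_self, List.length_cons, true_and]
      refine ⟨⟨?_, ?_, ?_⟩, hh, gg⟩
      · split_ifs with q
        · rfl
        · rw [Arr.get_set_ne _ q]
      · split_ifs with q
        · rfl
        · rw [Arr.get_set_ne _ q]
      · rw [na.rtS hP hC hp fun q => by rw [(k2 _ (pd q)).1.2.2.2.2.2, List.tail_cons]]
    · have n1 : x ≠ a := fun e => an (e ▸ hx)
      have n2 : parF P C' pv.get x ≠ a := fun e => an (e ▸ pl'.2.par_mem hx)
      obtain ⟨f, q1, q2⟩ := k2 x hx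
      simp only [Fl, Arr.get_set_ne _ n1, Arr.get_set_ne _ n2, List.length_cons, add_mul]
      exact ⟨f, by omega, by omega⟩
  · rw [List.reverse_nil, List.nil_append] at k1
    subst k1
    have f := fun x hx => (k2 x (k0 ▸ hx : x ∈ ord)).1
    exact ⟨k0 ▸ nd, k0 ▸ mem, k0 ▸ pl_congr pl fun x hx => (k2 x hx).1.1, fun x hx => (f x hx).1,
      fun x hx => (f x hx).2.1, fun x hx => by rw [(f x hx).1]; exact (f x hx).2.2.1,
      fun x hx => by rw [(f x hx).1, (f x hx).2.1, ← geF_eq]; exact (f x hx).2.2.2.1,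
      fun x hx => (f x hx).2.2.2.2.1, fun x hx => (f x hx).2.2.2.2.2⟩

@[fun_prop] theorem impl_fillR {α : Type} [Rp α] {P : α → Pm} {ed : α → Arr Ed} {pv : α → Arr ℕ}
    {C : α → Arr (Arr Col)} {ord : α → List ℕ} (h1 : Pu true P) (h2 : Pu true ed)
    (h3 : Pu true pv) (h4 : Pu true C) (h5 : Pu true ord) :
    Impl fun a => fillR (P a) (ed a) (pv a) (C a) (ord a) := by
  unfold fillR fill1 parF hlF geF nmF peF rtS colF; impl

end Crest.Agent.N325.Lt
end

-- ▼ part N325/Lt/Prep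
section

/-! Row 325 (helper16): edge table, adjacency lists, vertices and chains of slots. -/

set_option autoImplicit false

namespace Crest.Agent.N325.Lt
open Tw

/-- the list is the chain below `a` -/
def Ch (pv : ℕ → ℕ) : ℕ → List ℕ → Prop
  | _, [] => True
  | a, b :: l => pv b = a ∧ Ch pv b l

theorem Ch.congr {pv pv' : ℕ → ℕ} {a : ℕ} {l : List ℕ} (h : Ch pv a l)
    (e : ∀ b ∈ l, pv' b = pv b) : Ch pv' a l := by
  induction l generalizing a with
  | nil => trivial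
  | cons b l ih => exact ⟨(e b (by simp)).trans h.1, ih h.2 fun x hx => e x (by simp [hx])⟩

theorem Ch.mem {pv : ℕ → ℕ} {a : ℕ} {l : List ℕ} (h : Ch pv a l) (n : (a :: l).Nodup) :
    (∀ b ∈ l, pv b ∈ a :: l ∧ pv b ≠ b) ∧ ∀ b ∈ l, ∀ c ∈ l, pv b = pv c → b = c := by
  induction l generalizing a with
  | nil => simp
  | cons x l ih =>
    obtain ⟨n1, n2⟩ := List.nodup_cons.1 n
    obtain ⟨i1, i2⟩ := ih h.2 n2
    have k : ∀ c ∈ l, pv x ≠ pv c := fun c hc e => n1 (h.1 ▸ e ▸ (i1 c hc).1)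
    simp only [List.forall_mem_cons]
    exact ⟨⟨⟨by simp [h.1], fun e => n1 (by simp [← h.1, e])⟩, fun b hb =>
      ⟨List.mem_cons_of_mem _ (i1 b hb).1, (i1 b hb).2⟩⟩, ⟨fun _ => trivial,
      fun c hc e => absurd e (k c hc)⟩, fun b hb => ⟨fun e => absurd e.symm (k b hb), i2 b hb⟩⟩

theorem chain_of {G : Gr} {adj : ℕ → List ℕ} {pv : ℕ → ℕ} (hA : Adj G adj)
    (h : ∀ v, Ch pv (3 * v) (adj v)) : Chain G pv := by
  have n : ∀ v, (3 * v :: adj v).Nodup := fun v =>
    List.nodup_cons.2 ⟨fun k => (((hA v).2 _).1 k).1.1 (by omega), (hA v).1⟩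
  have k : ∀ q, Slot G q → (pv q % 3 = 0 ∨ Slot G (pv q)) ∧ vq G.ed (pv q) = vq G.ed q ∧
      pv q ≠ q := fun q hq => by
    obtain ⟨a, b⟩ := ((h _).mem (n _)).1 q (((hA _).2 q).2 ⟨hq, rfl⟩)
    rcases List.mem_cons.1 a with e | e
    · exact ⟨.inl (by omega), by rw [e, vq_main], b⟩
    · exact ⟨.inr (((hA _).2 _).1 e).1, (((hA _).2 _).1 e).2, b⟩
  exact ⟨k, fun q q' hq hq' e => ((h _).mem (n _)).2 q (((hA _).2 q).2 ⟨hq, rfl⟩) q'
    (((hA _).2 q').2 ⟨hq', by rw [← (k q' hq').2.1, ← e, (k q hq).2.1]⟩) e⟩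

/-- adjacency lists, vertices, chains -/
abbrev Pt := Arr (List ℕ) × List ℕ × Arr ℕ

/-- put the slot `q` in front of the list of `v` -/
def putS (q v : ℕ) (s : Pt) : R Pt := do
  let m ← nat (3 * v)
  pure (s.1.set v (q :: s.1.get v), if s.1.get v = [] then v :: s.2.1 else s.2.1,
    (s.2.2.set ((s.1.get v).headD q) q).set q m)

/-- **edge table, adjacency lists, vertices, chains** -/
def prepR (l : List (ℕ × Ed)) : R (Arr Ed × Pt) := do
  let ed ← foldP (fun p (s : Arr Ed) => s.set p.1 p.2) l (Arr.cst ⟨0, 0, 0, 0⟩)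
  let s ← foldL (fun p s => do
    let q ← nat (3 * p.1)
    let s1 ← putS (q + 1) p.2.a s
    putS (q + 2) p.2.b s1) l (Arr.cst [], [], Arr.cst 0)
  pure (ed, s)

/-- the slots in `A` are done -/
def PI (vx : ℕ → ℕ) (A : ℕ → Prop) (s : Pt) : Prop :=
  (∀ v, (s.1.get v).Nodup ∧ (∀ q, q ∈ s.1.get v ↔ A q ∧ vx q = v) ∧
    Ch s.2.2.get (3 * v) (s.1.get v)) ∧ s.2.1.Nodup ∧ ∀ v, v ∈ s.2.1 ↔ s.1.get v ≠ []

variable {g : Gl}

theorem sp_putS {vx : ℕ → ℕ} {A : ℕ → Prop} {s : Pt} (h : PI vx A s) {q : ℕ} (hq : ¬A q)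
    (hX : 3 * vx q ≤ g.X) :
    Sp g (putS q (vx q) s) fun r t => PI vx (fun x => x = q ∨ A x) r ∧ t = 0 := by
  obtain ⟨h1, h2, h3⟩ := h
  have nq : ∀ v, q ∉ s.1.get v := fun v k => hq (((h1 v).2.1 q).1 k).1
  refine sp_bind.2 (sp_nat.2 ⟨hX, ⟨fun v => ?_, ?_, fun v => ?_⟩, rfl⟩)
  · by_cases e : v = vx q
    · subst e
      simp only [Arr.get_set_self]
      obtain ⟨a, b, c⟩ := h1 (vx q)
      refine ⟨List.nodup_cons.2 ⟨nq _, a⟩, fun x => ?_, Arr.get_set_self _ _ _, ?_⟩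
      · rw [List.mem_cons, b]
        exact ⟨by rintro (rfl | k); exacts [⟨.inl rfl, rfl⟩, ⟨.inr k.1, k.2⟩],
          by rintro ⟨rfl | k, k'⟩; exacts [.inl rfl, .inr ⟨k, k'⟩]⟩
      · have := nq (vx q)
        generalize s.1.get (vx q) = L at *
        cases L with
        | nil => trivial
        | cons x L =>
          simp only [List.mem_cons, not_or, List.nodup_cons] at this a
          refine ⟨by simp [Arr.get_set, Ne.symm this.1], c.2.congr fun y hy => ?_⟩
          rw [Arr.get_set_ne _ (fun e : y = q => this.2 (e ▸ hy)), List.headD_cons,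
            Arr.get_set_ne _ (fun e : y = x => a.1 (e ▸ hy))]
    · simp only [Arr.get_set_ne _ e]
      obtain ⟨a, b, c⟩ := h1 v
      refine ⟨a, fun x => ?_, c.congr fun y hy => ?_⟩
      · rw [b]
        exact ⟨fun k => ⟨.inr k.1, k.2⟩, by
          rintro ⟨rfl | k, k'⟩; exacts [absurd k'.symm e, ⟨k, k'⟩]⟩
      · have n1 : y ≠ q := fun e => nq v (e ▸ hy)
        rw [Arr.get_set_ne _ n1, Arr.get_set_ne _ fun e' => ?_]
        have := fun x => ((h1 (vx q)).2.1 x).1
        generalize s.1.get (vx q) = L at *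
        cases L with
        | nil => exact n1 e'
        | cons x L => exact e (((b y).1 hy).2.symm.trans (this y (by simp [e'])).2)
  · dsimp only
    split_ifs with e
    · exact List.nodup_cons.2 ⟨fun k => (h3 _).1 k e, h2⟩
    · exact h2
  · dsimp only
    by_cases e : v = vx q
    · subst e
      split_ifs with e <;> simp [h3, e]
    · rw [Arr.get_set_ne _ e, ← h3]
      split_ifs <;> simp [e]

theorem foldl_ed (l : List (ℕ × Ed)) (f : ℕ → Ed) (h : ∀ p ∈ l, f p.1 = p.2) (s : Arr Ed) (e : ℕ)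
    (he : e ∈ l.map Prod.fst ∨ s.get e = f e) :
    (l.foldl (fun (s : Arr Ed) p => s.set p.1 p.2) s).get e = f e := by
  induction l generalizing s with
  | nil => simpa using he
  | cons p l ih =>
    refine ih (fun x hx => h x (by simp [hx])) _ ?_
    by_cases k : e = p.1
    · exact .inr (by rw [k, Arr.get_set_self, h p (by simp)])
    · rw [Arr.get_set_ne _ k]; simpa [k] using he

theorem sp_prepR {G : Gr} {c : Bd} {l : List (ℕ × Ed)} (hG : G.Ok c) (hl : Enum G l)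
    (hX : 3 * c.nb ≤ g.X) :
    Sp g (prepR l) fun r t => (∀ e ∈ G.E, r.1.get e = G.ed e) ∧ Adj G r.2.1.get ∧ Vtx G r.2.2.1 ∧
      Chain G r.2.2.2.get ∧ (∀ v, Ch r.2.2.2.get (3 * v) (r.2.1.get v)) ∧
      t ≤ 2 * l.length + 2 := by
  refine (sp_foldP _ _ _).bind fun ed t1 ⟨h1, k1⟩ => (sp_foldL' (fun l' s => (∀ p ∈ l', p ∈ l) ∧
    (l'.map Prod.fst).Nodup ∧ PI (vq G.ed) (fun q => Slot G q ∧ q / 3 ∉ l'.map Prod.fst) s)
    (fun _ => 0) (fun p l' s ⟨a, b, d⟩ => ?_) (l := l) ⟨fun _ h => h, hl.1, fun v => ?_, ?_⟩).bind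
    fun s t2 ⟨⟨_, _, d⟩, k2⟩ => ?_
  · have hp := a p (by simp)
    have hE := (hl.2.1 _).2 (List.mem_map_of_mem (f := Prod.fst) hp)
    obtain ⟨b1, b2, b3, -⟩ := hG.2.2 _ hE
    have ea : p.2.a = vq G.ed (3 * p.1 + 1) := by rw [vq_a, hl.2.2 p hp]
    have eb : p.2.b = vq G.ed (3 * p.1 + 2) := by rw [vq_b, hl.2.2 p hp]
    rw [hl.2.2 p hp] at b2 b3
    rw [List.map_cons, List.nodup_cons] at b
    refine sp_bind.2 (sp_nat.2 ⟨by omega, ?_⟩)
    rw [ea, eb]
    refine (sp_putS d (fun k => k.2 (by simp [show (3 * p.1 + 1) / 3 = p.1 by omega]))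
      (by omega)).bind fun s1 t ⟨d1, k⟩ => (sp_putS d1 (fun k => k.elim (by omega) fun k =>
        k.2 (by simp [show (3 * p.1 + 2) / 3 = p.1 by omega])) (by omega)).mono
      fun s2 u ⟨d2, k'⟩ => ⟨⟨fun x hx => a x (by simp [hx]), b.2, ?_⟩, by omega⟩
    convert d2 using 2 with q
    rw [List.map_cons, List.mem_cons, not_or]
    constructor
    · rintro ⟨x, y⟩
      by_cases e : q / 3 = p.1
      · have := x.1; omega
      · exact .inr (.inr ⟨x, e, y⟩)
    · rintro (rfl | rfl | ⟨x, -, y⟩)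
      · exact ⟨slot_b hE, by rw [show (3 * p.1 + 2) / 3 = p.1 by omega]; exact b.1⟩
      · exact ⟨slot_a hE, by rw [show (3 * p.1 + 1) / 3 = p.1 by omega]; exact b.1⟩
      · exact ⟨x, y⟩
  · exact ⟨List.nodup_nil, fun q => ⟨fun k => (by cases k),
      fun k => absurd ((hl.2.1 _).1 k.1.1.2) k.1.2⟩, trivial⟩
  · simp
  · have hA : Adj G s.1.get := fun v => ⟨(d.1 v).1, by simpa using (d.1 v).2.1⟩
    refine ⟨fun e he => h1 ▸ foldl_ed l G.ed hl.2.2 _ e (.inl ((hl.2.1 e).1 he)), hA,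
      ⟨d.2.1, fun v => ?_⟩, chain_of hA fun v => (d.1 v).2.2, fun v => (d.1 v).2.2, ?_⟩
    · rw [d.2.2, Ne, List.eq_nil_iff_forall_not_mem]
      simp [(hA v).2]
    · simp at k2; omega

variable {α : Type} [Rp α]

@[fun_prop] theorem impl_putS {q v : α → ℕ} {s : α → Pt} (h1 : Pu true q) (h2 : Pu true v)
    (h3 : Pu true s) : Impl fun a => putS (q a) (v a) (s a) := by impl

@[fun_prop] theorem impl_prepR {l : α → List (ℕ × Ed)} (h : Pu true l) :
    Impl fun a => prepR (l a) := by impl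

end Crest.Agent.N325.Lt
end

-- ▼ part N325/Lt/Nodes0
section

/-! Row 325 (helper16): the list of the nodes of the lifted forest, children first. -/

set_option autoImplicit false

namespace Crest.Agent.N325.Lt
open Tw

open Classical in
/-- the nodes of the vertex `v` in the copy `w` on level `i` -/
noncomputable def grpF (P : Pm) (C : ℕ → ℕ → Col) (adj : ℕ → List ℕ) (i w v : ℕ) : List ℕ :=
  if val P C (P.D - i) i v w then ((3 * v :: adj v).map fun q => P.nd q i w).reverse else []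

/-- the number of codes on level `i` -/
def Pm.nW (P : Pm) (i : ℕ) : ℕ := if i = P.D then 1 else P.S

/-- all nodes -/
noncomputable def ordF (P : Pm) (C : ℕ → ℕ → Col) (adj : ℕ → List ℕ) : List ℕ :=
  (List.range' 0 (P.D + 1)).flatMap fun i => (List.range' 0 (P.nW i)).flatMap fun w =>
    (C i (w % P.s)).ord.flatMap (grpF P C adj i w)

theorem PL.of_pairwise {par : ℕ → ℕ} {l : List ℕ} (h : ∀ x ∈ l, par x ∈ l)
    (hp : l.Pairwise fun a b => par b ≠ a) : PL par l := by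
  induction l with
  | nil => trivial
  | cons a l ih =>
    obtain ⟨p1, p2⟩ := List.pairwise_cons.1 hp
    exact ⟨List.mem_cons.1 (h a (by simp)), ih (fun x hx =>
      (List.mem_cons.1 (h x (by simp [hx]))).resolve_left (p1 x hx)) p2⟩

theorem PL.pairwise {par : ℕ → ℕ} {l : List ℕ} (h : PL par l) (n : l.Nodup) :
    l.Pairwise fun a b => a ≠ b ∧ par b ≠ a := by
  induction l with
  | nil => exact .nil
  | cons a l ih =>
    obtain ⟨n1, n2⟩ := List.nodup_cons.1 n
    exact List.pairwise_cons.2 ⟨fun b hb => ⟨fun e => n1 (e ▸ hb),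
      fun e => n1 (e ▸ h.2.par_mem hb)⟩, ih h.2 n2⟩

theorem Ch.pairwise {pv : ℕ → ℕ} {a : ℕ} {l : List ℕ} (h : Ch pv a l) (n : (a :: l).Nodup) :
    l.Pairwise fun b c => pv b ≠ c := by
  induction l generalizing a with
  | nil => exact .nil
  | cons b l ih =>
    obtain ⟨n1, n2⟩ := List.nodup_cons.1 n
    exact List.pairwise_cons.2 ⟨fun c hc e => n1 (by simp [← h.1, e, hc]), ih h.2 n2⟩

variable {G : Gr} {V : List ℕ} {P : Pm} {C : ℕ → ℕ → Col} {pv : ℕ → ℕ} {adj : ℕ → List ℕ}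
  {c : Bd} {x : ℕ}

theorem node_nd (hC : Covers G V P C) (hP : P.Ok) {p i w : ℕ} (hi : i ≤ P.D)
    (hp : p % 3 = 0 ∨ Slot G p) (h : val P C (P.D - i) i (vq G.ed p) w) :
    Node G P C (P.nd p i w) ∧ P.ps (P.nd p i w) = p ∧ P.lv (P.nd p i w) = i ∧
      P.cd (P.nd p i w) = w := by
  have hw := val_lt hC hP h (by omega)
  unfold Node
  rw [P.ps_nd hw (by omega), P.lv_nd hw (by omega), P.cd_nd hw]
  exact ⟨⟨hi, hp, h⟩, rfl, rfl, rfl⟩

theorem Node.lt (h : Node G P C x) (hP : P.Ok) (hV : Vtx G V) (hC : Covers G V P C)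
    (hG : G.Ok c) : x < (3 * c.nb + 3) * (P.D + 2) * P.S := by
  obtain ⟨e, he, k⟩ := h.ps_cases hP hV hC
  obtain ⟨h1, h2, h3, -⟩ := hG.2.2 e he
  have h4 : (P.ps x + 1) * (P.D + 2) ≤ (3 * c.nb + 3) * (P.D + 2) :=
    Nat.mul_le_mul_right _ (by omega)
  have h5 := P.lv_lt x
  have h6 : (P.ps x * (P.D + 2) + P.lv x + 1) * P.S ≤ (3 * c.nb + 3) * (P.D + 2) * P.S :=
    Nat.mul_le_mul_right _ (by rw [add_mul] at h4; omega)
  have h7 := Pm.cd_lt hP x
  have h8 := P.nd_eta x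
  rw [Pm.nd] at h8
  rw [add_mul _ 1] at h6
  omega

/-- the parent of a node is a node, of one of four kinds -/
theorem Node.par (h : Node G P C x) (hP : P.Ok) (hC : Covers G V P C) (hp : Pos G)
    (hpv : Chain G pv) : Node G P C (parF P C pv x) ∧
    (Slot G (P.ps x) ∧ P.ps (parF P C pv x) = pv (P.ps x) ∧ P.lv (parF P C pv x) = P.lv x ∧
      P.cd (parF P C pv x) = P.cd x ∨
    vq G.ed (P.ps (parF P C pv x)) = (colF P C x).up G.ed (vq G.ed (P.ps x)) ∧
      vq G.ed (P.ps (parF P C pv x)) ≠ vq G.ed (P.ps x) ∧ P.lv (parF P C pv x) = P.lv x ∧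
      P.cd (parF P C pv x) = P.cd x ∨
    P.lv (parF P C pv x) = P.lv x + 1 ∨ parF P C pv x = x) := by
  obtain ⟨⟨Rd, k⟩, m⟩ := h.colOk hP hC
  obtain ⟨h1, h2, h3⟩ := id h
  unfold parF
  split_ifs with a b d
  · have s := h2.resolve_left a
    obtain ⟨n, e⟩ := node_nd hC hP h1 (hpv.1 _ s).1 ((hpv.1 _ s).2.1 ▸ h3)
    exact ⟨n, .inl ⟨s, e⟩⟩
  · rw [vq_of_main _ (not_not.1 a)] at m h3 ⊢
    obtain ⟨t1, -, t3, t4, t5⟩ := k.tree _ m b
    obtain ⟨n, e1, e2⟩ := node_nd hC hP h1 (.inr t1) (val_congr h3 t3 t4)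
    refine ⟨n, .inr (.inl ⟨by rw [e1, Col.up, if_neg b], fun e => ?_, e2⟩)⟩
    have := hp _ t1.2
    rw [e1] at e; rw [e] at t5; omega
  · exact ⟨h, .inr (.inr (.inr rfl))⟩
  · rw [show P.D - P.lv x = P.D - (P.lv x + 1) + 1 by omega] at h3
    have h4 := h3.2
    rw [vq_of_main _ (not_not.1 a), show (C (P.lv x) (P.cd x % P.s)).cen.get (P.ps x / 3) =
      P.ps x / 3 from not_not.1 b, ← vq_of_main G.ed (not_not.1 a)] at h4
    obtain ⟨n, -, e, -⟩ := node_nd hC hP (by omega) h2 h4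
    exact ⟨n, .inr (.inr (.inl e))⟩

theorem mem_grpF (hC : Covers G V P C) (hP : P.Ok) (hA : Adj G adj) {i w v : ℕ} (hi : i ≤ P.D) :
    x ∈ grpF P C adj i w v ↔
      Node G P C x ∧ P.lv x = i ∧ P.cd x = w ∧ vq G.ed (P.ps x) = v := by
  unfold grpF
  constructor
  · intro h
    split_ifs at h with k
    · obtain ⟨q, hq, rfl⟩ := List.mem_map.1 (List.mem_reverse.1 h)
      have : (q % 3 = 0 ∨ Slot G q) ∧ vq G.ed q = v := by
        rcases List.mem_cons.1 hq with rfl | hq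
        · exact ⟨.inl (by omega), vq_main _ _⟩
        · exact ⟨.inr (((hA v).2 q).1 hq).1, (((hA v).2 q).1 hq).2⟩
      obtain ⟨n, e1, e2, e3⟩ := node_nd hC hP hi this.1 (this.2 ▸ k)
      exact ⟨n, e2, e3, by rw [e1, this.2]⟩
    · cases h
  · rintro ⟨⟨-, h2, h3⟩, rfl, rfl, rfl⟩
    rw [if_pos h3]
    refine List.mem_reverse.2 (List.mem_map.2 ⟨_, List.mem_cons.2 ?_, P.nd_eta x⟩)
    exact h2.imp (fun e => by rw [vq_of_main _ e]; omega) fun s => ((hA _).2 _).2 ⟨s, rfl⟩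

theorem mem_ordF (hC : Covers G V P C) (hP : P.Ok) (hA : Adj G adj) :
    x ∈ ordF P C adj ↔ Node G P C x := by
  simp only [ordF, List.mem_flatMap, List.mem_range'_1, zero_add, zero_le, true_and]
  constructor
  · rintro ⟨i, hi, w, -, v, -, h⟩
    exact ((mem_grpF hC hP hA (by omega)).1 h).1
  · intro h
    refine ⟨_, Nat.lt_succ_of_le h.1, P.cd x, ?_, _, (h.colOk hP hC).2,
      (mem_grpF hC hP hA h.1).2 ⟨h, rfl, rfl, rfl⟩⟩
    unfold Pm.nW
    split_ifs with e
    · have := h.2.2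
      rw [e, Nat.sub_self] at this
      rw [this.2]; exact one_pos
    · exact Pm.cd_lt hP x

theorem col_nW (hC : Covers G V P C) (hP : P.Ok) {i w : ℕ} (hi : i ≤ P.D) (hw : w < P.nW i) :
    ∃ Rd, (C i (w % P.s)).Ok G V Rd := by
  unfold Pm.nW at hw
  split_ifs at hw with e
  · rw [e, show w = 0 by omega, Nat.zero_mod]; exact ⟨_, hC.2.1⟩
  · exact ⟨_, (hC.1 i (by omega)).1 _ (Nat.mod_lt _ hP.s1)⟩

theorem pairwise_ordF (hC : Covers G V P C) (hP : P.Ok) (hA : Adj G adj) (hp : Pos G)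
    (hpv : Chain G pv) (hch : ∀ v, Ch pv (3 * v) (adj v)) :
    (ordF P C adj).Pairwise fun a b => a ≠ b ∧ parF P C pv b ≠ a := by
  refine List.pairwise_flatMap.2 ⟨fun i hi => List.pairwise_flatMap.2 ⟨fun w hw =>
    List.pairwise_flatMap.2 ⟨fun v _ => ?_, ?_⟩, ?_⟩, ?_⟩
  · have hi : i ≤ P.D := by have := List.mem_range'_1.1 hi; omega
    have m := fun x => (mem_grpF (x := x) (w := w) (v := v) hC hP hA hi).1
    unfold grpF at m ⊢
    split_ifs at m ⊢ with k
    · have n : (3 * v :: adj v).Nodup :=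
        List.nodup_cons.2 ⟨fun k => (((hA v).2 _).1 k).1.1 (by omega), (hA v).1⟩
      have hw := val_lt hC hP k (by omega)
      have p : (3 * v :: adj v).Pairwise fun q q' => Slot G q → pv q ≠ q' := List.pairwise_cons.2
        ⟨fun _ _ s => absurd (by omega) s.1, ((hch v).pairwise n).imp fun {q _} h (_ : Slot G q) => h⟩
      refine List.pairwise_reverse.2 (List.pairwise_map.2 ((p.and n).imp_of_mem ?_))
      intro q q' hq hq' ⟨r1, r2⟩
      obtain ⟨a1, a2, -, a4⟩ := m _ (List.mem_reverse.2 (List.mem_map_of_mem hq))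
      obtain ⟨-, b2, -, b4⟩ := m _ (List.mem_reverse.2 (List.mem_map_of_mem hq'))
      have ne : P.nd q' i w ≠ P.nd q i w := fun e =>
        r2 (P.nd_inj hw (by omega) hw (by omega) e).1.symm
      refine ⟨ne, fun e => ?_⟩
      have := (a1.par hP hC hp hpv).2
      rw [e, P.ps_nd hw (by omega), P.ps_nd hw (by omega)] at this
      rw [P.ps_nd hw (by omega)] at a4 b4
      rcases this with t | t | t | t
      · exact r1 t.1 t.2.1.symm
      · exact t.2.1 (b4.trans a4.symm)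
      · omega
      · exact ne t
    · exact .nil
  · have hi : i ≤ P.D := by have := List.mem_range'_1.1 hi; omega
    obtain ⟨Rd, k⟩ := col_nW hC hP hi (w := w) (by have := List.mem_range'_1.1 hw; omega)
    refine (k.pl.pairwise k.nd).imp fun {u v} ⟨r1, r2⟩ x hx y hy => ?_
    obtain ⟨-, a2, -, a4⟩ := (mem_grpF hC hP hA hi).1 hx
    obtain ⟨b1, b2, b3, b4⟩ := (mem_grpF hC hP hA hi).1 hy
    have ne : x ≠ y := fun e => r1 (by rw [← a4, ← b4, e])
    refine ⟨ne, fun e => ?_⟩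
    have := (b1.par hP hC hp hpv).2
    rw [e] at this
    rcases this with t | t | t | t
    · exact r1 (by rw [← a4, ← b4, t.2.1, (hpv.1 _ t.1).2.1])
    · exact r2 (by rw [← a4, ← b4, t.1, colF, b2, b3])
    · omega
    · exact ne t
  · have hi : i ≤ P.D := by have := List.mem_range'_1.1 hi; omega
    refine (List.pairwise_lt_range' 1).imp fun {w w'} r x hx y hy => ?_
    obtain ⟨u, -, hx⟩ := List.mem_flatMap.1 hx
    obtain ⟨v, -, hy⟩ := List.mem_flatMap.1 hy
    obtain ⟨-, a2, a3, -⟩ := (mem_grpF hC hP hA hi).1 hx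
    obtain ⟨b1, b2, b3, -⟩ := (mem_grpF hC hP hA hi).1 hy
    refine ⟨fun e => by rw [e] at a3; omega, fun e => ?_⟩
    have := (b1.par hP hC hp hpv).2
    rw [e] at this
    rcases this with t | t | t | t
    · omega
    · omega
    · omega
    · rw [t] at a3; omega
  · refine (List.pairwise_lt_range' 1).imp_of_mem fun {i j} hi hj r x hx y hy => ?_
    obtain ⟨w, -, hx⟩ := List.mem_flatMap.1 hx
    obtain ⟨w', -, hy⟩ := List.mem_flatMap.1 hy
    obtain ⟨u, -, hx⟩ := List.mem_flatMap.1 hx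
    obtain ⟨v, -, hy⟩ := List.mem_flatMap.1 hy
    have := List.mem_range'_1.1 hj
    obtain ⟨-, a2, -⟩ := (mem_grpF hC hP hA (by omega)).1 hx
    obtain ⟨b1, b2, -⟩ := (mem_grpF hC hP hA (by omega)).1 hy
    refine ⟨fun e => by rw [e] at a2; omega, fun e => ?_⟩
    have := (b1.par hP hC hp hpv).2
    rw [e] at this
    rcases this with t | t | t | t
    · omega
    · omega
    · omega
    · rw [t] at a2; omega

theorem ordF_spec (hC : Covers G V P C) (hP : P.Ok) (hA : Adj G adj) (hp : Pos G)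
    (hpv : Chain G pv) (hch : ∀ v, Ch pv (3 * v) (adj v)) : (ordF P C adj).Nodup ∧
      (∀ x, x ∈ ordF P C adj ↔ Node G P C x) ∧ PL (parF P C pv) (ordF P C adj) :=
  have h := pairwise_ordF hC hP hA hp hpv hch
  ⟨h.imp fun k => k.1, fun _ => mem_ordF hC hP hA, .of_pairwise (fun _ hx => (mem_ordF hC hP hA).2
    (((mem_ordF hC hP hA).1 hx).par hP hC hp hpv).1) (h.imp fun k => k.2)⟩

end Crest.Agent.N325.Lt
end

-- ▼ part N325/Lt/Cv0
section

/-!
# Row 325 (helper29): ball carving, the pure part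
-/

set_option autoImplicit false
open Finset

namespace Crest.Agent.N325.Lt.Cv

/-- an undirected graph by accessors: edges at a vertex, other end, length -/
structure UG where
  adj : ℕ → List ℕ
  hd : ℕ → ℕ → ℕ
  ln : ℕ → ℕ

/-- symmetric, with positive lengths, living on `V` -/
structure UG.WF (G : UG) (V : Finset ℕ) : Prop where
  mem : ∀ x ∈ V, ∀ e ∈ G.adj x, G.hd x e ∈ V
  sym : ∀ x ∈ V, ∀ e ∈ G.adj x,
    ∃ e' ∈ G.adj (G.hd x e), G.hd (G.hd x e) e' = x ∧ G.ln e' = G.ln e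
  pos : ∀ x ∈ V, ∀ e ∈ G.adj x, 1 ≤ G.ln e

/-- walks from `s` that only enter vertices of `al` -/
inductive Wk (G : UG) (al : ℕ → Prop) (s : ℕ) : ℕ → ℕ → Prop
  | nil : Wk G al s s 0
  | step {x d e : ℕ} : Wk G al s x d → e ∈ G.adj x → al (G.hd x e) →
      Wk G al s (G.hd x e) (d + G.ln e)

/-- within distance `r` -/
def Near (G : UG) (al : ℕ → Prop) (s x r : ℕ) : Prop := ∃ d ≤ r, Wk G al s x d

variable {G : UG} {V : Finset ℕ} {al al' : ℕ → Prop} {s x y d d' r r' : ℕ}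

theorem Wk.trans (h : Wk G al s x d) (h' : Wk G al x y d') : Wk G al s y (d + d') := by
  induction h' with
  | nil => exact h
  | step _ he ha ih => rw [← add_assoc]; exact ih.step he ha

theorem Wk.mono (h : Wk G al s x d) (k : ∀ v, al v → al' v) : Wk G al' s x d := by
  induction h with
  | nil => exact .nil
  | step _ he ha ih => exact ih.step he (k _ ha)

theorem Wk.mem (hG : G.WF V) (hs : s ∈ V) (h : Wk G al s x d) : x ∈ V := by
  induction h with
  | nil => exact hs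
  | step _ he _ ih => exact hG.mem _ ih _ he

theorem Wk.live (hs : al s) (h : Wk G al s x d) : al x := by
  cases h with
  | nil => exact hs
  | step _ _ ha => exact ha

theorem Wk.symm (hG : G.WF V) (hs : s ∈ V) (ha : al s) (h : Wk G al s x d) : Wk G al x s d := by
  induction h with
  | nil => exact .nil
  | @step x d e w he _ ih =>
    obtain ⟨e', k1, k2, k3⟩ := hG.sym x (w.mem hG hs) e he
    have := (Wk.nil (G := G) (al := al) (s := G.hd x e)).step k1 (by rw [k2]; exact w.live ha)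
    rw [k2, k3, zero_add] at this
    rw [add_comm]; exact this.trans ih

/-- a short walk stays inside a mask which contains the ball -/
theorem Wk.restrict (h : Wk G al s x d) (hd : d ≤ r) (k : ∀ y, Near G al s y r → al' y) :
    Wk G al' s x d := by
  induction h with
  | nil => exact .nil
  | step w he ha ih => exact (ih (by omega)).step he (k _ ⟨_, hd, w.step he ha⟩)

theorem Near.refl : Near G al s s r := ⟨0, Nat.zero_le _, .nil⟩

theorem Near.le (h : Near G al s x r) (k : r ≤ r') : Near G al s x r' :=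
  let ⟨d, a, w⟩ := h; ⟨d, a.trans k, w⟩

theorem Near.trans (h : Near G al s x r) (h' : Near G al x y r') : Near G al s y (r + r') :=
  let ⟨d, a, w⟩ := h; let ⟨d', a', w'⟩ := h'; ⟨d + d', by omega, w.trans w'⟩

theorem Near.symm (hG : G.WF V) (hs : s ∈ V) (ha : al s) (h : Near G al s x r) :
    Near G al x s r := let ⟨d, a, w⟩ := h; ⟨d, a, w.symm hG hs ha⟩

theorem Near.restrict (h : Near G al s x r) (k : ∀ y, Near G al s y r → al' y) :
    Near G al' s x r := let ⟨d, a, w⟩ := h; ⟨d, a, w.restrict a k⟩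

theorem Near.mem (hG : G.WF V) (hs : s ∈ V) (h : Near G al s x r) : x ∈ V :=
  let ⟨_, _, w⟩ := h; w.mem hG hs

theorem Near.live (hs : al s) (h : Near G al s x r) : al x := let ⟨_, _, w⟩ := h; w.live hs

/-- the result of a search: ball (farthest first), distances, parents -/
structure Ball (G : UG) (al : ℕ → Prop) (s r : ℕ) (L : List ℕ) (D : ℕ → ℕ) (P : ℕ → ℕ × ℕ) :
    Prop where
  nd : L.Nodup
  mem : ∀ x, x ∈ L ↔ Near G al s x r
  wk : ∀ x ∈ L, Wk G al s x (D x)
  min : ∀ x ∈ L, ∀ d, Wk G al s x d → D x ≤ d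
  srt : L.Pairwise fun x y => D y ≤ D x
  par : ∀ x ∈ L, x ≠ s → (P x).1 ∈ L ∧ (P x).2 ∈ G.adj (P x).1 ∧ G.hd (P x).1 (P x).2 = x ∧
    D x = D (P x).1 + G.ln (P x).2

variable {L : List ℕ} {D : ℕ → ℕ} {P : ℕ → ℕ × ℕ}

theorem Ball.near (B : Ball G al s r L D P) (h : r' ≤ r) :
    (x ∈ L ∧ D x ≤ r') ↔ Near G al s x r' :=
  ⟨fun k => ⟨_, k.2, B.wk x k.1⟩, fun ⟨d, a, w⟩ =>
    have m := (B.mem x).2 ⟨d, a.trans h, w⟩
    ⟨m, (B.min x m d w).trans a⟩⟩

theorem Ball.le (B : Ball G al s r L D P) (h : x ∈ L) : D x ≤ r :=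
  ((B.near le_rfl).2 ((B.mem x).1 h)).2

theorem Ball.self (B : Ball G al s r L D P) : s ∈ L ∧ D s = 0 :=
  have := (B.near (Nat.zero_le r)).2 Near.refl
  ⟨this.1, Nat.le_zero.1 this.2⟩

open Classical in
/-- the weight of a ball -/
noncomputable def bw (G : UG) (V : Finset ℕ) (al : ℕ → Prop) (w : ℕ → ℕ) (s r : ℕ) : ℕ :=
  ∑ x ∈ V, if Near G al s x r then w x else 0

theorem bw_mono (w : ℕ → ℕ) (h : r ≤ r') : bw G V al w s r ≤ bw G V al w s r' :=
  sum_le_sum fun x _ => by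
    by_cases k : Near G al s x r
    · rw [if_pos k, if_pos (k.le h)]
    · rw [if_neg k]; exact Nat.zero_le _

theorem bw_le (w : ℕ → ℕ) : bw G V al w s r ≤ ∑ x ∈ V, w x :=
  sum_le_sum fun x _ => by split_ifs <;> simp

theorem le_bw (w : ℕ → ℕ) (hs : s ∈ V) : w s ≤ bw G V al w s r := by
  classical
  refine le_trans ?_ (single_le_sum (fun _ _ => Nat.zero_le _) hs)
  rw [if_pos Near.refl]

/-- sums over a list without repetitions -/
theorem sum_map_eq (hn : L.Nodup) (hV : ∀ x ∈ L, x ∈ V) (w : ℕ → ℕ) :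
    (L.map w).sum = ∑ x ∈ V, if x ∈ L then w x else 0 := by
  rw [← List.sum_toFinset _ hn, ← sum_filter]
  refine sum_congr ?_ fun _ _ => rfl
  ext x
  simp only [List.mem_toFinset, mem_filter]
  exact ⟨fun h => ⟨hV x h, h⟩, fun h => h.2⟩

theorem Ball.sum_eq (B : Ball G al s r L D P) (hG : G.WF V) (hs : s ∈ V) (w : ℕ → ℕ)
    (h : r' ≤ r) : (L.map fun x => if D x ≤ r' then w x else 0).sum = bw G V al w s r' := by
  rw [sum_map_eq B.nd fun x hx => ((B.mem x).1 hx).mem hG hs]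
  refine sum_congr rfl fun x _ => ?_
  have := B.near (x := x) h
  by_cases h1 : x ∈ L <;> by_cases h2 : D x ≤ r' <;> simp [h1, h2, ← this]

theorem Ball.sum_all (B : Ball G al s r L D P) (hG : G.WF V) (hs : s ∈ V) (w : ℕ → ℕ) :
    (L.map w).sum = bw G V al w s r := by
  rw [← B.sum_eq hG hs w le_rfl]
  exact congrArg _ (List.map_congr_left fun x hx => (if_pos (B.le hx)).symm)

/-- one colour: a partial partition (`cen` = centre + 1, `0` = not clustered) into trees -/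
structure Col (G : UG) (V : Finset ℕ) (β : ℕ) (cen : ℕ → ℕ) (par : ℕ → ℕ × ℕ) (dep : ℕ → ℕ)
    (ord : List ℕ) : Prop where
  nd : ord.Nodup
  mem : ∀ x, x ∈ ord ↔ cen x ≠ 0
  sub : ∀ x ∈ ord, x ∈ V
  ctr : ∀ x z, cen x = z + 1 → cen z = z + 1 ∧ dep z = 0
  rad : ∀ x ∈ ord, dep x ≤ β
  par : ∀ x ∈ ord, cen x ≠ x + 1 → cen (par x).1 = cen x ∧ (par x).2 ∈ G.adj (par x).1 ∧
    G.hd (par x).1 (par x).2 = x ∧ dep x = dep (par x).1 + G.ln (par x).2
  srt : ord.Pairwise fun x y => cen x = cen y → dep x ≤ dep y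

/-- the ball of radius `q` about `x` lies in one cluster -/
def Cov (G : UG) (q : ℕ) (cen : ℕ → ℕ) (x : ℕ) : Prop :=
  cen x ≠ 0 ∧ ∀ y, Near G (fun _ => True) x y q → cen y = cen x

theorem Col.nil (G : UG) (V : Finset ℕ) (β : ℕ) (par : ℕ → ℕ × ℕ) (dep : ℕ → ℕ) :
    Col G V β (fun _ => 0) par dep [] :=
  ⟨List.nodup_nil, by simp, by simp, by simp, by simp, by simp, List.Pairwise.nil⟩

/-- a new cluster: the part of the ball with `D ≤ b` -/
theorem Col.add {β b : ℕ} {cen cen' : ℕ → ℕ} {par par' : ℕ → ℕ × ℕ} {dep dep' : ℕ → ℕ}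
    {ord C : List ℕ} (h : Col G V β cen par dep ord) (hG : G.WF V) (hs : s ∈ V) (h0 : cen s = 0)
    (B : Ball G (fun x => cen x = 0) s r L D P) (hb : b ≤ β)
    (hC : C = L.filter fun x => decide (D x ≤ b))
    (e1 : ∀ x, cen' x = if x ∈ C then s + 1 else cen x)
    (e2 : ∀ x, par' x = if x ∈ C then P x else par x)
    (e3 : ∀ x, dep' x = if x ∈ C then D x else dep x) :
    Col G V β cen' par' dep' (C.reverse ++ ord) := by
  have mC : ∀ x, x ∈ C ↔ x ∈ L ∧ D x ≤ b := fun x => by simp [hC]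
  have z : ∀ x ∈ C, cen x = 0 := fun x hx =>
    Near.live (al := fun x => cen x = 0) h0 ((B.mem x).1 ((mC x).1 hx).1)
  have no : ∀ x ∈ ord, x ∉ C := fun x hx k => (h.mem x).1 hx (z x k)
  have sC : s ∈ C := (mC s).2 ⟨B.self.1, by rw [B.self.2]; exact Nat.zero_le _⟩
  have ne : ∀ x, cen x ≠ s + 1 := fun x k => by have := (h.ctr x s k).1; omega
  refine ⟨?_, fun x => ?_, fun x hx => ?_, fun x y k => ?_, fun x hx => ?_, fun x hx k => ?_, ?_⟩
  · refine List.nodup_append.2 ⟨List.nodup_reverse.2 (hC ▸ B.nd.filter _), h.nd, ?_⟩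
    rintro x hx y hy rfl
    exact no x hy (List.mem_reverse.1 hx)
  · rw [List.mem_append, List.mem_reverse, e1, h.mem]
    by_cases k : x ∈ C <;> simp [k]
  · rcases List.mem_append.1 hx with k | k
    · exact ((B.mem x).1 ((mC x).1 (List.mem_reverse.1 k)).1).mem hG hs
    · exact h.sub x k
  · rw [e1] at k
    by_cases c : x ∈ C
    · rw [if_pos c] at k
      obtain rfl : s = y := by omega
      rw [e1, e3, if_pos sC, if_pos sC]; exact ⟨rfl, B.self.2⟩
    · rw [if_neg c] at k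
      have := h.ctr x y k
      have c' : y ∉ C := fun c' => by have := z y c'; omega
      rw [e1, e3, if_neg c', if_neg c']; exact this
  · rw [e3]
    rcases List.mem_append.1 hx with k | k
    · rw [List.mem_reverse] at k
      rw [if_pos k]; exact ((mC x).1 k).2.trans hb
    · rw [if_neg (no x k)]; exact h.rad x k
  · rcases List.mem_append.1 hx with c | c
    · rw [List.mem_reverse] at c
      rw [e1, if_pos c] at k
      obtain ⟨p1, p2, p3, p4⟩ := B.par x ((mC x).1 c).1 (by omega)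
      have pc : (P x).1 ∈ C := (mC _).2 ⟨p1, by have := ((mC x).1 c).2; omega⟩
      rw [e2, if_pos c, e1, e1, e3, e3, if_pos c, if_pos c, if_pos pc, if_pos pc]
      exact ⟨rfl, p2, p3, p4⟩
    · rw [e1, if_neg (no x c)] at k
      obtain ⟨p1, p2, p3, p4⟩ := h.par x c k
      have pc : (par x).1 ∉ C := no _ ((h.mem _).2 (p1 ▸ (h.mem x).1 c))
      rw [e2, if_neg (no x c), e1, e1, e3, e3, if_neg (no x c), if_neg (no x c), if_neg pc,
        if_neg pc]
      exact ⟨p1, p2, p3, p4⟩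
  · refine List.pairwise_append.2 ⟨?_, ?_, fun x hx y hy k => ?_⟩
    · rw [List.pairwise_reverse]
      have : C.Pairwise fun x y => D y ≤ D x := hC ▸ B.srt.filter _
      refine this.imp_of_mem fun {x y} hx hy k _ => ?_
      rw [e3, e3, if_pos hx, if_pos hy]; exact k
    · refine h.srt.imp_of_mem fun {x y} hx hy k => ?_
      rw [e1, e1, e3, e3, if_neg (no x hx), if_neg (no y hy), if_neg (no x hx), if_neg (no y hy)]
      exact k
    · rw [e1, e1, if_pos (List.mem_reverse.1 hx), if_neg (no y hy)] at k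
      exact absurd k.symm (ne y)

end Crest.Agent.N325.Lt.Cv
end

-- ▼ part N325/Lt/Cv1
section

/-!
# Row 325 (helper29): ball carving, one cluster and one colour
-/

set_option autoImplicit false
open Finset

namespace Crest.Agent.N325.Lt.Cv

/-- ball, distances, parents -/
abbrev Bl := List ℕ × Arr ℕ × Arr (ℕ × ℕ)
/-- a colour: centres, parents, depths, order -/
abbrev Cl := Arr ℕ × Arr (ℕ × ℕ) × Arr ℕ × List ℕ

/-- the colour is a partial partition into trees of radius at most `β` -/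
def ClOk (G : UG) (V : Finset ℕ) (β : ℕ) (c : Cl) : Prop :=
  Col G V β c.1.get c.2.1.get c.2.2.1.get c.2.2.2

/-- the specification of the search among the vertices with `cen = 0` -/
def BSpec (g : Gl) (G : UG) (V : Finset ℕ) (bl : Arr ℕ → ℕ → ℕ → R Bl) (wt : ℕ → ℕ)
    (Rm κ : ℕ) : Prop :=
  ∀ (cen : Arr ℕ) (s r : ℕ), s ∈ V → r ≤ Rm → Sp g (bl cen s r) fun o t =>
    Ball G (fun x => cen.get x = 0) s r o.1 o.2.1.get o.2.2.get ∧ t ≤ κ * ((o.1.map wt).sum + 1)

/-- the invariant of a colour: `ys` = centres still available, `nx` = centres postponed -/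
structure Inv (G : UG) (V : Finset ℕ) (β q : ℕ) (U rest : List ℕ) (ys : ℕ → ℕ) (nx : List ℕ)
    (c : Cl) : Prop where
  col : ClOk G V β c
  y1 : ∀ x, ys x ≤ 1
  yr : ∀ x, ys x ≠ 0 → x ∈ rest ∧ x ∈ V ∧ x ∉ nx ∧
    ∀ y, Near G (fun _ => True) x y q → c.1.get y = 0
  cov : ∀ x ∈ U, ys x ≠ 0 ∨ x ∈ nx ∨ Cov G q c.1.get x
  nxn : nx.Nodup
  nxs : ∀ x ∈ nx, x ∈ V
  cnt : 2 * nx.length + ∑ x ∈ V, ys x ≤ U.length

theorem length_filter_add (L : List ℕ) {ys : ℕ → ℕ} (h : ∀ x, ys x ≤ 1) (D : ℕ → ℕ) (a : ℕ) :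
    (L.filter fun x => decide (ys x ≠ 0 ∧ a < D x)).length +
      (L.map fun x => if D x ≤ a then ys x else 0).sum = (L.map ys).sum := by
  induction L with
  | nil => rfl
  | cons x L ih =>
    have := h x
    rw [List.filter_cons, List.map_cons, List.map_cons, List.sum_cons, List.sum_cons]
    by_cases h1 : ys x ≠ 0 ∧ a < D x
    · rw [if_pos (decide_eq_true h1), if_neg (by omega), List.length_cons]; omega
    · rw [if_neg (by simpa using h1)]; split_ifs <;> omega

variable {G : UG} {V : Finset ℕ} {β q a v : ℕ} {U rest nx L C N : List ℕ} {ys ys' D : ℕ → ℕ}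
  {P : ℕ → ℕ × ℕ} {c c' : Cl} {g : Gl}

theorem Inv.skip (h : Inv G V β q U (v :: rest) ys nx c) (h0 : ys v = 0) :
    Inv G V β q U rest ys nx c :=
  ⟨h.col, h.y1, fun x hx => ⟨((List.mem_cons.1 (h.yr x hx).1).resolve_left fun e => hx (e ▸ h0)),
    (h.yr x hx).2⟩, h.cov, h.nxn, h.nxs, h.cnt⟩

theorem Inv.step (h : Inv G V β q U (v :: rest) ys nx c) (hG : G.WF V) (hv : ys v ≠ 0)
    (B : Ball G (fun x => c.1.get x = 0) v (a + 2 * q) L D P) (hb : a + q ≤ β)
    (hc : (L.map ys).sum ≤ 2 * (L.map fun x => if D x ≤ a then ys x else 0).sum)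
    (hC : C = L.filter fun x => decide (D x ≤ a + q))
    (hN : N = L.filter fun x => decide (ys x ≠ 0 ∧ a < D x))
    (e0 : ∀ x, ys' x = if x ∈ L then 0 else ys x)
    (e1 : ∀ x, c'.1.get x = if x ∈ C then v + 1 else c.1.get x)
    (e2 : ∀ x, c'.2.1.get x = if x ∈ C then P x else c.2.1.get x)
    (e3 : ∀ x, c'.2.2.1.get x = if x ∈ C then D x else c.2.2.1.get x)
    (e4 : c'.2.2.2 = C.reverse ++ c.2.2.2) :
    Inv G V β q U rest ys' (N.reverse ++ nx) c' := by
  obtain ⟨-, vV, -, v0⟩ := h.yr v hv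
  replace v0 := v0 v Near.refl
  have mC : ∀ x, x ∈ C ↔ Near G (fun x => c.1.get x = 0) v x (a + q) := fun x => by
    rw [← B.near (by omega)]; simp [hC]
  have mN : ∀ x, x ∈ N ↔ x ∈ L ∧ ys x ≠ 0 ∧ a < D x := fun x => by simp [hN]
  have z : ∀ x ∈ C, c.1.get x = 0 := fun x hx =>
    Near.live (al := fun x => c.1.get x = 0) v0 ((mC x).1 hx)
  have LV : ∀ x ∈ L, x ∈ V := fun x hx => ((B.mem x).1 hx).mem hG vV
  refine ⟨?_, fun x => ?_, fun x hx => ?_, fun x hx => ?_, ?_, fun x hx => ?_, ?_⟩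
  · unfold ClOk; rw [e4]; exact Col.add h.col hG vV v0 B hb hC e1 e2 e3
  · rw [e0]; have := h.y1 x; split_ifs <;> omega
  · rw [e0] at hx
    have xL : x ∉ L := fun k => hx (if_pos k)
    rw [if_neg xL] at hx
    obtain ⟨h1, h2, h3, h4⟩ := h.yr x hx
    refine ⟨(List.mem_cons.1 h1).resolve_left fun e => xL (e ▸ B.self.1), h2, ?_, fun y hy => ?_⟩
    · rw [List.mem_append, List.mem_reverse, mN]
      exact fun k => k.elim (fun k => xL k.1) h3
    · rw [e1, if_neg fun k => xL ((B.mem x).2 ?_), h4 y hy]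
      have := ((mC y).1 k).trans ((hy.restrict h4).symm hG h2 (h4 x Near.refl))
      exact this.le (by omega)
  · rw [List.mem_append, List.mem_reverse, mN, e0]
    rcases h.cov x hx with k | k | k
    · by_cases xL : x ∈ L
      · by_cases d : a < D x
        · exact .inr (.inl (.inl ⟨xL, k, d⟩))
        · have n := (B.near (r' := a) (by omega)).1 ⟨xL, by omega⟩
          have xC : x ∈ C := (mC x).2 (n.le (by omega))
          refine .inr (.inr ⟨by rw [e1, if_pos xC]; omega, fun y hy => ?_⟩)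
          rw [e1, e1, if_pos xC, if_pos ((mC y).2 (n.trans (hy.restrict (h.yr x k).2.2.2)))]
      · rw [if_neg xL]; exact .inl k
    · exact .inr (.inl (.inr k))
    · have xC : x ∉ C := fun m => k.1 (z x m)
      refine .inr (.inr ⟨by rw [e1, if_neg xC]; exact k.1, fun y hy => ?_⟩)
      rw [e1, e1, if_neg xC, if_neg fun m => k.1 (k.2 y hy ▸ z y m), k.2 y hy]
  · refine List.nodup_append.2 ⟨List.nodup_reverse.2 (hN ▸ B.nd.filter _), h.nxn, ?_⟩
    rintro x hx y hy rfl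
    exact (h.yr x ((mN x).1 (List.mem_reverse.1 hx)).2.1).2.2.1 hy
  · rcases List.mem_append.1 hx with k | k
    · exact LV x ((mN x).1 (List.mem_reverse.1 k)).1
    · exact h.nxs x k
  · have h1 := length_filter_add L h.y1 D a
    have h2 : ∑ x ∈ V, ys' x + (L.map ys).sum = ∑ x ∈ V, ys x := by
      rw [sum_map_eq B.nd LV, ← sum_add_distrib]
      exact sum_congr rfl fun x _ => by rw [e0]; split_ifs <;> simp
    have h3 := h.cnt
    rw [List.length_append, List.length_reverse, hN]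
    omega

/-- the weight of the vertices which are not clustered -/
def free (V : Finset ℕ) (wt cen : ℕ → ℕ) : ℕ := ∑ x ∈ V, if cen x = 0 then wt x else 0

theorem free_step {cen cen' wt : ℕ → ℕ} {r b : ℕ} (B : Ball G (fun x => cen x = 0) v r L D P)
    (v0 : cen v = 0) (hb : b ≤ r) (hC : C = L.filter fun x => decide (D x ≤ b))
    (e1 : ∀ x, cen' x = if x ∈ C then v + 1 else cen x) :
    free V wt cen' + bw G V (fun x => cen x = 0) wt v b = free V wt cen := by
  rw [free, free, bw, ← sum_add_distrib]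
  refine sum_congr rfl fun x _ => ?_
  have mC : x ∈ C ↔ Near G (fun x => cen x = 0) v x b := by rw [← B.near hb]; simp [hC]
  rw [e1]
  by_cases k : x ∈ C
  · have := Near.live (al := fun x => cen x = 0) v0 (mC.1 k)
    simp [k, mC.1 k, this]
  · simp [k, mt mC.2 k]

/-- one radius -/
def tryR (bl : Arr ℕ → ℕ → ℕ → R Bl) (wt : ℕ → ℕ) (q : ℕ) (cen ys : Arr ℕ) (v : ℕ)
    (s : ℕ × Bool × Bl) : R (ℕ × Bool × Bl) :=
  nat (2 * q * s.1) >>= fun a => nat (a + 2 * q) >>= fun b => bl cen v b >>= fun o =>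
    sumL (fun x => if o.2.1.get x ≤ a then ys.get x else 0) o.1 >>= fun c0 =>
      sumL (fun x => ys.get x) o.1 >>= fun c1 =>
        sumL (fun x => if o.2.1.get x ≤ a then wt x else 0) o.1 >>= fun w0 =>
          sumL (fun x => wt x) o.1 >>= fun w1 =>
            if c1 ≤ 2 * c0 ∧ w1 ≤ 2 * w0 then pure (s.1, false, o) else pure (s.1 + 1, true, o)

/-- grow the ball until it stops doubling -/
def growR (bl : Arr ℕ → ℕ → ℕ → R Bl) (wt : ℕ → ℕ) (q kk : ℕ) (cen ys : Arr ℕ) (v : ℕ) :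
    R (ℕ × Bool × Bl) :=
  whileF (fun s => s.2.1) (tryR bl wt q cen ys v) (kk + 2)
    (0, true, [], Arr.cst 0, Arr.cst (0, 0))

/-- the hypotheses of the carving -/
structure Hyp (g : Gl) (G : UG) (V : Finset ℕ) (bl : Arr ℕ → ℕ → ℕ → R Bl) (wt : ℕ → ℕ)
    (q kk κ : ℕ) : Prop where
  wf : G.WF V
  hb : BSpec g G V bl wt (2 * q * kk) κ
  pos : ∀ x ∈ V, 1 ≤ wt x
  hk : (∑ x ∈ V, wt x) ^ 2 < 2 ^ kk
  wX : ∑ x ∈ V, wt x ≤ g.X
  qX : 2 * q * kk ≤ g.X

variable {bl : Arr ℕ → ℕ → ℕ → R Bl} {wt : ℕ → ℕ} {kk κ : ℕ}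

theorem length_le_sum (h : ∀ x ∈ L, 1 ≤ wt x) : L.length ≤ (L.map wt).sum := by
  have := List.sum_le_sum h
  simpa using this

theorem sp_growR (H : Hyp g G V bl wt q kk κ) {cen ys : Arr ℕ} (y1 : ∀ x, ys.get x ≤ 1)
    (hv : ys.get v ≠ 0) (vV : v ∈ V) :
    Sp g (growR bl wt q kk cen ys v) fun s t => s.1 < kk ∧
      Ball G (fun x => cen.get x = 0) v (2 * q * s.1 + 2 * q) s.2.2.1 s.2.2.2.1.get s.2.2.2.2.get ∧
      (s.2.2.1.map ys.get).sum ≤
        2 * (s.2.2.1.map fun x => if s.2.2.2.1.get x ≤ 2 * q * s.1 then ys.get x else 0).sum ∧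
      s.2.2.1.length ≤ 2 * bw G V (fun x => cen.get x = 0) wt v (2 * q * s.1) ∧
      t ≤ 3 * kk * (κ + 5) * bw G V (fun x => cen.get x = 0) wt v (2 * q * s.1) + 1 := by
  set al := fun x => cen.get x = 0
  have yw : ∀ r, bw G V al ys.get v r ≤ ∑ x ∈ V, wt x := fun r =>
    (bw_le _).trans (sum_le_sum fun x hx => (y1 x).trans (H.pos x hx))
  have ww : ∀ r, bw G V al wt v r ≤ ∑ x ∈ V, wt x := fun r => bw_le _
  have w1 : ∀ r, 1 ≤ bw G V al wt v r := fun r => (H.pos v vV).trans (le_bw _ vV)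
  refine (sp_whileF (fun s t => if s.2.1 = true then
      2 ^ s.1 ≤ bw G V al ys.get v (2 * q * s.1) * bw G V al wt v (2 * q * s.1) ∧
        t ≤ s.1 * ((κ + 5) * (bw G V al wt v (2 * q * s.1) + 1))
    else s.1 < kk ∧ Ball G al v (2 * q * s.1 + 2 * q) s.2.2.1 s.2.2.2.1.get s.2.2.2.2.get ∧
      (s.2.2.1.map ys.get).sum ≤
        2 * (s.2.2.1.map fun x => if s.2.2.2.1.get x ≤ 2 * q * s.1 then ys.get x else 0).sum ∧
      s.2.2.1.length ≤ 2 * bw G V al wt v (2 * q * s.1) ∧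
      t ≤ 3 * kk * (κ + 5) * bw G V al wt v (2 * q * s.1))
    (fun s => if s.2.1 = true then kk + 1 - s.1 else 0) ?_ (t := 0) ?_ (by simp)).mono ?_
  · rintro ⟨j, f, o'⟩ t k e
    simp only at e k
    rw [if_pos e] at k
    have hj : j < kk := by
      have := k.1.trans (Nat.mul_le_mul (yw _) (ww _))
      exact (Nat.pow_lt_pow_iff_right (by norm_num)).1 (this.trans_lt (by rw [← sq]; exact H.hk))
    have hr : 2 * q * j + 2 * q ≤ 2 * q * kk := by
      rw [← Nat.mul_succ]; exact Nat.mul_le_mul_left _ hj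
    have hX := H.qX
    have hW := H.wX
    simp only [tryR, sp_bind, sp_nat]
    refine ⟨by omega, by omega, (H.hb cen v _ vV hr).mono fun o t0 ⟨B0, c0⟩ => ?_⟩
    have B : Ball G al v (2 * q * j + 2 * q) o.1 o.2.1.get o.2.2.get := B0
    have s1 := B.sum_eq H.wf vV ys.get (Nat.le_add_right (2 * q * j) _)
    have s2 := B.sum_all H.wf vV ys.get
    have s3 := B.sum_eq H.wf vV wt (Nat.le_add_right (2 * q * j) _)
    have s4 := B.sum_all H.wf vV wt
    have ln : o.1.length ≤ (o.1.map wt).sum :=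
      length_le_sum fun x hx => H.pos x (((B.mem x).1 hx).mem H.wf vV)
    refine (sp_sumL _ _ (s1 ▸ (yw _).trans hW)).mono fun _ t1 ⟨e1, c1⟩ =>
      (sp_sumL _ _ (s2 ▸ (yw _).trans hW)).mono fun _ t2 ⟨e2, c2⟩ =>
      (sp_sumL _ _ (s3 ▸ (ww _).trans hW)).mono fun _ t3 ⟨e3, c3⟩ =>
      (sp_sumL _ _ (s4 ▸ (ww _).trans hW)).mono fun _ t4 ⟨e4, c4⟩ => ?_
    subst e1 e2 e3 e4
    have mm := fun w => bw_mono (G := G) (V := V) (al := al) (s := v) w
      (Nat.le_add_right (2 * q * j) (2 * q))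
    have m1 := mm ys.get
    have m2 := mm wt
    have tt : t + 1 + (t0 + (t1 + (t2 + (t3 + t4)))) ≤
        (j + 1) * ((κ + 5) * (bw G V al wt v (2 * q * j + 2 * q) + 1)) := by
      have := Nat.mul_le_mul_left j (Nat.mul_le_mul_left (κ + 5) (Nat.add_le_add_right m2 1))
      have k2 := k.2
      rw [s4] at c0 ln
      rw [add_mul j, one_mul, add_mul κ 5 (bw G V al wt v (2 * q * j + 2 * q) + 1)] at *
      omega
    rw [sp_ite]
    refine ⟨fun c => ⟨?_, ?_⟩, fun c => ⟨?_, ?_⟩⟩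
    · simp only [Bool.false_eq_true, if_false]
      refine ⟨hj, B, c.1, ln.trans (s3 ▸ c.2), le_trans (le_of_eq (by omega)) (tt.trans ?_)⟩
      have c2 := c.2
      have := w1 (2 * q * j)
      rw [show (List.map (fun x => wt x) o.1) = o.1.map wt from rfl, s3, s4] at c2
      calc _ ≤ kk * ((κ + 5) * (3 * bw G V al wt v (2 * q * j))) :=
            Nat.mul_le_mul hj (Nat.mul_le_mul_left _ (by omega))
        _ = _ := by ring
    · simp only [e, Bool.false_eq_true, if_false, if_true]; omega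
    · simp only [if_true, Nat.mul_succ]
      refine ⟨?_, le_trans (le_of_eq (by omega)) tt⟩
      rw [show (List.map (fun x => wt x) o.1) = o.1.map wt from rfl,
        show (List.map (fun x => ys.get x) o.1) = o.1.map ys.get from rfl, s1, s2, s3, s4] at c
      have k1 := k.1
      rw [pow_succ]
      by_cases c1 : bw G V al ys.get v (2 * q * j + 2 * q) ≤ 2 * bw G V al ys.get v (2 * q * j)
      · have := Nat.mul_le_mul m1 (show 2 * bw G V al wt v (2 * q * j) ≤ _ from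
          (not_le.1 fun c2 => c ⟨c1, c2⟩).le)
        nlinarith
      · have := Nat.mul_le_mul (not_le.1 c1).le m2
        nlinarith
    · simp only [e, if_true]; omega
  · simp only [if_true, pow_zero, zero_mul, le_refl, and_true]
    exact Nat.mul_pos (lt_of_lt_of_le (Nat.pos_of_ne_zero hv) (le_bw _ vV)) (w1 _)
  · rintro s t ⟨e, u, rfl, k⟩
    rw [if_neg (by simp [e]), zero_add] at k
    exact ⟨k.1, k.2.1, k.2.2.1, k.2.2.2.1, Nat.add_le_add_right k.2.2.2.2 1⟩

/-- carve a cluster about `v` -/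
def carve (bl : Arr ℕ → ℕ → ℕ → R Bl) (wt : ℕ → ℕ) (q kk : ℕ) (v : ℕ)
    (s : Arr ℕ × List ℕ × Cl) : R (Arr ℕ × List ℕ × Cl) :=
  if s.1.get v = 0 then pure s else
    growR bl wt q kk s.2.2.1 s.1 v >>= fun r => nat (2 * q * r.1) >>= fun a =>
      nat (a + q) >>= fun b =>
      filterP (fun x => decide (r.2.2.2.1.get x ≤ b)) r.2.2.1 >>= fun C =>
      filterP (fun x => decide (s.1.get x ≠ 0 ∧ a < r.2.2.2.1.get x)) r.2.2.1 >>= fun N =>
      revAppL N s.2.1 >>= fun nx => setAllP (fun _ => 0) r.2.2.1 s.1 >>= fun ys =>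
      setAllP (fun _ => v + 1) C s.2.2.1 >>= fun cen =>
      setAllP (fun x => r.2.2.2.2.get x) C s.2.2.2.1 >>= fun par =>
      setAllP (fun x => r.2.2.2.1.get x) C s.2.2.2.2.1 >>= fun dep =>
      revAppL C s.2.2.2.2.2 >>= fun ord => pure (ys, nx, cen, par, dep, ord)

theorem sp_carve (H : Hyp g G V bl wt q kk κ) {s : Arr ℕ × List ℕ × Cl}
    (h : Inv G V (2 * q * kk) q U (v :: rest) s.1.get s.2.1 s.2.2) :
    Sp g (carve bl wt q kk v s) fun s' t => Inv G V (2 * q * kk) q U rest s'.1.get s'.2.1 s'.2.2 ∧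
      t + (3 * kk * (κ + 5) + 31) * free V wt s'.2.2.1.get ≤
        (3 * kk * (κ + 5) + 31) * free V wt s.2.2.1.get := by
  refine sp_ite.2 ⟨fun c => ⟨h.skip c, (zero_add _).le⟩, fun c => ?_⟩
  obtain ⟨-, vV, -, v0⟩ := h.yr v c
  replace v0 := v0 v Near.refl
  refine (sp_growR H h.y1 c vV).bind fun r t0 ⟨hj, B, hc, ln, c0⟩ => ?_
  have hr : 2 * q * r.1 + 2 * q ≤ 2 * q * kk := by
    rw [← Nat.mul_succ]; exact Nat.mul_le_mul_left _ hj
  have hX := H.qX
  simp only [sp_bind, sp_nat]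
  refine ⟨by omega, by omega, (sp_filterP _ _).mono fun C t1 ⟨hC, c1⟩ =>
    (sp_filterP _ _).mono fun N t2 ⟨hN, c2⟩ => (sp_revAppL _ _).mono fun nx t3 ⟨e3, c3⟩ =>
    (sp_setAllP _ _ _).mono fun ys t4 ⟨e4, c4⟩ => (sp_setAllP _ _ _).mono fun cen t5 ⟨e5, c5⟩ =>
    (sp_setAllP _ _ _).mono fun par t6 ⟨e6, c6⟩ => (sp_setAllP _ _ _).mono fun dep t7 ⟨e7, c7⟩ =>
    (sp_revAppL _ _).mono fun ord t8 ⟨e8, c8⟩ => ⟨?_, ?_⟩⟩
  · subst e3
    exact h.step (c' := (cen, par, dep, ord)) H.wf c B (by omega) hc hC hN e4 e5 e6 e7 e8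
  · have f := free_step (wt := wt) (V := V) B v0 (b := 2 * q * r.1 + q) (by omega) hC e5
    have m := bw_mono (G := G) (V := V) (al := fun x => s.2.2.1.get x = 0) (s := v) wt
      (Nat.le_add_right (2 * q * r.1) q)
    have p := (H.pos v vV).trans (le_bw (G := G) (al := fun x => s.2.2.1.get x = 0)
      (r := 2 * q * r.1) wt vV)
    have l1 : C.length ≤ r.2.2.1.length := hC ▸ List.length_filter_le _ _
    have l2 : N.length ≤ r.2.2.1.length := hN ▸ List.length_filter_le _ _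
    have := Nat.mul_le_mul_left (3 * kk * (κ + 5)) m
    simp only
    rw [← f, mul_add _ (free _ _ _), add_mul _ 31 (bw _ _ _ _ _ _)]
    omega

/-- one colour: the postponed centres and the clusters -/
def colR (bl : Arr ℕ → ℕ → ℕ → R Bl) (wt : ℕ → ℕ) (q kk : ℕ) (U : List ℕ) : R (List ℕ × Cl) :=
  setAllP (fun _ => 1) U (Arr.cst 0) >>= fun ys =>
    foldL (carve bl wt q kk) U (ys, [], Arr.cst 0, Arr.cst (0, 0), Arr.cst 0, []) >>= fun s =>
      pure s.2

theorem sp_colR (H : Hyp g G V bl wt q kk κ) (nU : U.Nodup) (hU : ∀ x ∈ U, x ∈ V) :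
    Sp g (colR bl wt q kk U) fun o t => ClOk G V (2 * q * kk) o.2 ∧ o.1.Nodup ∧
      (∀ x ∈ o.1, x ∈ V) ∧ 2 * o.1.length ≤ U.length ∧ (∀ x ∈ U, x ∈ o.1 ∨ Cov G q o.2.1.get x) ∧
      t ≤ (3 * kk * (κ + 5) + 31) * ∑ x ∈ V, wt x + 2 * U.length + 2 := by
  refine (sp_setAllP _ _ _).bind fun ys t0 ⟨e, c0⟩ => (sp_foldL (fun l s t =>
    Inv G V (2 * q * kk) q U l s.1.get s.2.1 s.2.2 ∧
      t + (3 * kk * (κ + 5) + 31) * free V wt s.2.2.1.get + l.length ≤
        (3 * kk * (κ + 5) + 31) * ∑ x ∈ V, wt x + U.length)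
    (fun a l s t k => (sp_carve H k.1).mono fun s' u k' => ⟨k'.1, ?_⟩) (t := 0) ⟨?_, ?_⟩).bind
      fun s t ⟨u, e, k, c⟩ => ⟨k.col, k.nxn, k.nxs, ?_, fun x hx => ?_, ?_⟩
  · have := k.2; have := k'.2; rw [List.length_cons] at *; omega
  · refine ⟨Col.nil _ _ _ _ _, fun x => ?_, fun x hx => ?_, fun x hx => .inl ?_, List.nodup_nil,
      by simp, ?_⟩
    · rw [e]; split_ifs <;> simp
    · rw [e] at hx
      have : x ∈ U := by by_contra k; simp [k] at hx
      exact ⟨this, hU x this, by simp, fun _ _ => rfl⟩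
    · simp [e, hx]
    · have := sum_map_eq nU hU fun _ => 1
      simp only [e, Arr.get_cst, ← this]; simp
  · simp [free]
  · have := k.cnt; omega
  · exact (k.cov x hx).resolve_left fun h => by simpa using (k.yr x h).1
  · omega

end Crest.Agent.N325.Lt.Cv
end

-- ▼ part N325/Lt/Cv2
section

/-!
# Row 325 (helper29): ball carving, the components
-/

set_option autoImplicit false
open Finset

namespace Crest.Agent.N325.Lt.Cv

variable {G : UG} {V : Finset ℕ} {al : ℕ → Prop} {s r lb κ : ℕ} {L : List ℕ} {D wt : ℕ → ℕ}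
  {P : ℕ → ℕ × ℕ} {g : Gl} {bl : Arr ℕ → ℕ → ℕ → R Bl}

/-- distances are realised by simple paths -/
theorem Ball.depth (B : Ball G al s r L D P) (hG : G.WF V) (hs : s ∈ V)
    (hl : ∀ x ∈ V, ∀ e ∈ G.adj x, G.ln e ≤ lb) {x : ℕ} (hx : x ∈ L) : D x + lb ≤ V.card * lb := by
  have LV : ∀ x ∈ L, x ∈ V := fun x hx => ((B.mem x).1 hx).mem hG hs
  have key : ∀ n, ∀ x ∈ L, D x = n → D x ≤ (V.filter fun y => D y < D x).card * lb := by
    intro n
    induction n using Nat.strong_induction_on with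
    | _ n ih =>
      intro x hx e
      by_cases c : x = s
      · rw [c, B.self.2]; exact Nat.zero_le _
      obtain ⟨p1, p2, -, p4⟩ := B.par x hx c
      have h1 := hG.pos _ (LV _ p1) _ p2
      have h2 := hl _ (LV _ p1) _ p2
      have h3 := ih _ (by omega) _ p1 rfl
      have h4 : (V.filter fun y => D y < D (P x).1).card + 1 ≤
          (V.filter fun y => D y < D x).card :=
        card_lt_card ⟨fun y hy => mem_filter.2 ⟨(mem_filter.1 hy).1,
          by have := (mem_filter.1 hy).2; omega⟩, fun k => by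
            have := mem_filter.1 (k (mem_filter.2 ⟨LV _ p1, by omega⟩)); omega⟩
      have := Nat.mul_le_mul_right lb h4
      rw [add_mul] at this; omega
  have h4 : (V.filter fun y => D y < D x).card + 1 ≤ V.card :=
    card_lt_card ⟨filter_subset _ _, fun k => by have := mem_filter.1 (k (LV x hx)); omega⟩
  have := Nat.mul_le_mul_right lb h4
  have := key _ x hx rfl
  rw [add_mul] at *; omega

/-- the component of `v` becomes a cluster -/
def compR (bl : Arr ℕ → ℕ → ℕ → R Bl) (Q v : ℕ) (c : Cl) : R Cl :=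
  if c.1.get v = 0 then
    bl c.1 v Q >>= fun o => setAllP (fun _ => v + 1) o.1 c.1 >>= fun cen =>
      setAllP (fun x => o.2.2.get x) o.1 c.2.1 >>= fun par =>
      setAllP (fun x => o.2.1.get x) o.1 c.2.2.1 >>= fun dep =>
      revAppL o.1 c.2.2.2 >>= fun ord => pure (cen, par, dep, ord)
  else pure c

/-- all components -/
def compsR (bl : Arr ℕ → ℕ → ℕ → R Bl) (Q : ℕ) (U : List ℕ) : R Cl :=
  foldL (compR bl Q) U (Arr.cst 0, Arr.cst (0, 0), Arr.cst 0, [])

/-- the clusters are closed under adjacency -/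
def Closed (G : UG) (V : Finset ℕ) (cen : ℕ → ℕ) : Prop :=
  ∀ x ∈ V, cen x ≠ 0 → ∀ e ∈ G.adj x, cen (G.hd x e) = cen x

theorem sp_compR {Q v : ℕ} {c : Cl} (hG : G.WF V) (hb : BSpec g G V bl wt Q κ)
    (pos : ∀ x ∈ V, 1 ≤ wt x) (hl : ∀ x ∈ V, ∀ e ∈ G.adj x, G.ln e ≤ lb) (hQ : V.card * lb ≤ Q)
    (vV : v ∈ V) (h : ClOk G V Q c) (hc : Closed G V c.1.get) :
    Sp g (compR bl Q v c) fun c' t => ClOk G V Q c' ∧ Closed G V c'.1.get ∧ c'.1.get v ≠ 0 ∧
      (∀ x, c.1.get x ≠ 0 → c'.1.get x ≠ 0) ∧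
      t + (2 * κ + 8) * free V wt c'.1.get ≤ (2 * κ + 8) * free V wt c.1.get := by
  refine sp_ite.2 ⟨fun v0 => ?_, fun k => ⟨h, hc, k, fun _ => id, (zero_add _).le⟩⟩
  refine (hb c.1 v Q vV le_rfl).bind fun o t0 ⟨B, c0⟩ =>
    (sp_setAllP _ _ _).bind fun cen t1 ⟨e1, c1⟩ => (sp_setAllP _ _ _).bind fun par t2 ⟨e2, c2⟩ =>
    (sp_setAllP _ _ _).bind fun dep t3 ⟨e3, c3⟩ => (sp_revAppL _ _).bind fun ord t4 ⟨e4, c4⟩ => ?_
  have hC : o.1 = o.1.filter fun x => decide (o.2.1.get x ≤ Q) :=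
    (List.filter_eq_self.2 fun x hx => decide_eq_true (B.le hx)).symm
  have z : ∀ x ∈ o.1, c.1.get x = 0 := fun x hx =>
    Near.live (al := fun x => c.1.get x = 0) v0 ((B.mem x).1 hx)
  refine ⟨?_, fun x hx k e he => ?_, ?_, fun x k => ?_, ?_⟩
  · subst e4; exact Col.add h hG vV v0 B le_rfl hC e1 e2 e3
  · simp only [e1] at k ⊢
    obtain ⟨e', s1, s2, -⟩ := hG.sym x hx e he
    by_cases m : x ∈ o.1
    · have y0 : c.1.get (G.hd x e) = 0 := by
        by_contra y0
        have := hc _ (hG.mem x hx e he) y0 e' s1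
        rw [s2, z x m] at this
        exact y0 this.symm
      have := B.depth hG vV hl m
      have := hl x hx e he
      rw [if_pos m, if_pos ((B.mem _).2 ⟨_, by omega, (B.wk x m).step he y0⟩)]
    · rw [if_neg m] at k
      have := hc x hx k e he
      rw [if_neg m, if_neg fun m' => k (this ▸ z _ m'), this]
  · simp only [e1, if_pos B.self.1]; omega
  · simp only [e1]; split_ifs <;> omega
  · have f := free_step (wt := wt) (V := V) B v0 le_rfl hC e1
    have s4 := B.sum_all hG vV wt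
    have ln : o.1.length ≤ (o.1.map wt).sum :=
      length_le_sum fun x hx => pos x (((B.mem x).1 hx).mem hG vV)
    have p := (pos v vV).trans (le_bw (G := G) (al := fun x => c.1.get x = 0) (r := Q) wt vV)
    simp only
    rw [← f, mul_add _ (free _ _ _), ← s4] at *
    nlinarith

theorem sp_compsR {Q : ℕ} {U : List ℕ} (hG : G.WF V) (hb : BSpec g G V bl wt Q κ)
    (pos : ∀ x ∈ V, 1 ≤ wt x) (hl : ∀ x ∈ V, ∀ e ∈ G.adj x, G.ln e ≤ lb) (hQ : V.card * lb ≤ Q)
    (hU : ∀ x ∈ U, x ∈ V) :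
    Sp g (compsR bl Q U) fun c t => ClOk G V Q c ∧ Closed G V c.1.get ∧ (∀ x ∈ U, c.1.get x ≠ 0) ∧
      t ≤ (2 * κ + 8) * ∑ x ∈ V, wt x + U.length + 1 := by
  refine (sp_foldL (fun l c t => (∀ x ∈ l, x ∈ V) ∧ ClOk G V Q c ∧ Closed G V c.1.get ∧
      (∀ x ∈ U, x ∈ l ∨ c.1.get x ≠ 0) ∧
      t + (2 * κ + 8) * free V wt c.1.get + l.length ≤ (2 * κ + 8) * ∑ x ∈ V, wt x + U.length)
    (fun a l c t ⟨k1, k2, k3, k4, k5⟩ => (sp_compR hG hb pos hl hQ (k1 a List.mem_cons_self)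
      k2 k3).mono fun c' u ⟨h1, h2, h3, h4, h5⟩ =>
        ⟨fun x hx => k1 x (List.mem_cons_of_mem _ hx), h1, h2, fun x hx => ?_, ?_⟩) (t := 0)
      ⟨hU, by exact Col.nil _ _ _ _ _, fun x _ k => absurd rfl k, fun x hx => .inl hx, ?_⟩).mono
      fun c t ⟨u, e, _, k2, k3, k4, k5⟩ => ⟨k2, k3, fun x hx => ?_, by omega⟩
  · rcases k4 x hx with k | k
    · rcases List.mem_cons.1 k with rfl | k
      · exact .inr h3
      · exact .inl k
    · exact .inr (h4 x k)
  · rw [List.length_cons] at k5; omega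
  · simp [free]
  · simpa using k4 x hx

end Crest.Agent.N325.Lt.Cv
end

-- ▼ part N325/Lt/Carve
section

/-!
# Row 325 (helper29): the covers `coverR` and the components `topR`
-/

set_option autoImplicit false
open Finset

namespace Crest.Agent.N325.Lt.Cv
open Tw

variable {G : Gr} {c : Bd} {V : List ℕ} {ed : Arr Ed} {adj : Arr (List ℕ)} {g : Gl} {q : ℕ}

theorem opp_div (h : Slot G q) : opp q / 3 = q / 3 := by
  have := h.1; unfold opp; split_ifs <;> omega

theorem opp_opp (h : Slot G q) : opp (opp q) = q := by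
  have := h.1; unfold opp; split_ifs <;> omega

theorem slot_opp (h : Slot G q) : Slot G (opp q) :=
  ⟨by have := h.1; unfold opp; split_ifs <;> omega, opp_div h ▸ h.2⟩

theorem vq_congr (h : Slot G q) {ed : ℕ → Ed} (he : ∀ e ∈ G.E, ed e = G.ed e) :
    vq ed q = vq G.ed q := by unfold vq; rw [he _ h.2]

/-- the graph of the slots -/
def ug (G : Gr) (adj : ℕ → List ℕ) : UG :=
  ⟨adj, fun _ q => vq G.ed (opp q), fun q => (G.ed (q / 3)).l⟩

theorem ug_wf (hV : Vtx G V) (hA : Adj G adj.get) (hG : G.Ok c) :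
    (ug G adj.get).WF V.toFinset := by
  refine ⟨fun x _ e he => ?_, fun x _ e he => ?_, fun x _ e he => ?_⟩
  all_goals have k := ((hA x).2 e).1 he
  · exact List.mem_toFinset.2 ((hV.2 _).2 ⟨_, slot_opp k.1, rfl⟩)
  · exact ⟨opp e, ((hA _).2 _).2 ⟨slot_opp k.1, rfl⟩, by simp only [ug, opp_opp k.1, k.2],
      by simp only [ug, opp_div k.1]⟩
  · exact (hG.2.2 _ k.1.2).2.2.2.1

theorem wk_of_near (hA : Adj G adj.get) {u x d : ℕ} (h : Lt.Near G u x d) :
    Wk (ug G adj.get) (fun _ => True) u x d := by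
  induction h with
  | refl => exact .nil
  | step s _ ih => exact ih.step (((hA _).2 _).2 ⟨s, rfl⟩) trivial

theorem sum_adj_le (hV : Vtx G V) (hA : Adj G adj.get) :
    ∑ x ∈ V.toFinset, (1 + (adj.get x).length) ≤ V.length + 2 * G.E.card := by
  classical
  set S := G.E.image (fun e => 3 * e + 1) ∪ G.E.image fun e => 3 * e + 2
  have h1 : S.card ≤ 2 * G.E.card :=
    (card_union_le _ _).trans (by have := @card_image_le _ _ G.E (fun e => 3 * e + 1) _
                                  have := @card_image_le _ _ G.E (fun e => 3 * e + 2) _; omega)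
  have h2 : ∑ x ∈ V.toFinset, (adj.get x).length ≤ S.card := by
    refine le_trans (sum_le_sum fun x _ => ?_)
      ((sum_card_fiberwise_eq_card_filter S V.toFinset (vq G.ed)).trans_le (card_filter_le _ _))
    rw [← List.toFinset_card_of_nodup (hA x).1]
    refine card_le_card fun q hq => ?_
    have k := ((hA x).2 q).1 (List.mem_toFinset.1 hq)
    refine mem_filter.2 ⟨?_, k.2⟩
    have := k.1.1
    simp only [S, mem_union, mem_image]
    by_cases e : q % 3 = 1
    · exact .inl ⟨_, k.1.2, by omega⟩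
    · exact .inr ⟨_, k.1.2, by omega⟩
  rw [sum_add_distrib, sum_const, List.toFinset_card_of_nodup hV.1, smul_eq_mul]
  omega

/-- the graph for the search: only vertices with `cen = 0` are entered -/
def dgOf (ed : Arr Ed) (adj : Arr (List ℕ)) (cen : Arr ℕ) : Dj.Dg :=
  ⟨fun x => adj.get x, fun _ q => decide (cen.get (vq ed.get (opp q)) = 0),
    fun _ q => vq ed.get (opp q), fun _ q => (ed.get (q / 3)).l⟩

/-- the search -/
def blR (ed : Arr Ed) (adj : Arr (List ℕ)) (B fu : ℕ) (cen : Arr ℕ) (s r : ℕ) : R Bl :=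
  Dj.dij (dgOf ed adj cen) B r fu [(s, 0)] >>= fun o => pure (o.1, o.2.1, o.2.2.1)

theorem wk_iff (hA : Adj G adj.get) (he : ∀ e ∈ G.E, ed.get e = G.ed e) {cen : Arr ℕ} {s x d : ℕ} :
    Dj.Wk (dgOf ed adj cen) [(s, 0)] x d ↔ Wk (ug G adj.get) (fun x => cen.get x = 0) s x d := by
  constructor <;> intro h
  · induction h with
    | base m => cases List.mem_singleton.1 m; exact .nil
    | @step x d e _ m k ih =>
      have s := (((hA x).2 e).1 m).1
      simp only [dgOf, vq_congr (slot_opp s) he, he _ s.2, decide_eq_true_eq] at k ⊢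
      exact ih.step m k
  · induction h with
    | nil => exact .base List.mem_cons_self
    | @step x d e _ m k ih =>
      have s := (((hA x).2 e).1 m).1
      have := ih.step (e := e) m (by simpa only [dgOf, vq_congr (slot_opp s) he, decide_eq_true_eq])
      simpa only [ug, dgOf, vq_congr (slot_opp s) he, he _ s.2] using this

theorem bspec (hV : Vtx G V) (hA : Adj G adj.get) (hG : G.Ok c)
    (he : ∀ e ∈ G.E, ed.get e = G.ed e) {wt : ℕ → ℕ} {B fu Rm : ℕ}
    (hw : ∀ x ∈ V, wt x = 1 + (adj.get x).length) (hB : Rm < 2 ^ B)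
    (hfu : ∑ x ∈ V.toFinset, wt x + 1 < fu) :
    BSpec g (ug G adj.get) V.toFinset (blR ed adj B fu) wt Rm (3 * B + 7) := by
  intro cen s r hs hr
  have wf := ug_wf hV hA hG
  have e : ∑ x ∈ V.toFinset, wt x = ∑ x ∈ V.toFinset, (1 + ((dgOf ed adj cen).adj x).length) :=
    sum_congr rfl fun x hx => hw x (List.mem_toFinset.1 hx)
  refine (Dj.sp_dij (hr.trans_lt hB) (Dj.vol_le (V := V.toFinset) fun x d w _ =>
    ((wk_iff hA he).1 w).mem wf hs) (by rw [← e, List.length_singleton]; omega)).bind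
      fun o t ⟨h, ht⟩ => ⟨⟨h.nd, fun x => ?_, fun x hx => (wk_iff hA he).1 (h.wk x hx).1,
        fun x hx d w => h.le hx ((wk_iff hA he).2 w), h.srt, fun x hx k => ?_⟩, ?_⟩
  · simp only [h.mem, wk_iff hA he, Near]
  · obtain ⟨l1, l2, e⟩ := List.append_of_mem hx
    have := h.tree
    simp only at e
    rw [e] at this
    rcases this.par with p | ⟨p1, p2, -, p4, p5⟩
    · exact absurd (Prod.ext_iff.1 (List.mem_singleton.1 p.2)).1 k
    · have s := (((hA _).2 _).1 p2).1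
      simp only [dgOf, vq_congr (slot_opp s) he, he _ s.2] at p4 p5
      exact ⟨by simp only [e]; simp [p1], p2, p4, p5⟩
  · have : (o.1.map wt).sum = Dj.vol (dgOf ed adj cen) o.1 :=
      congrArg _ (List.map_congr_left fun x hx => hw x (List.mem_toFinset.1
        (((wk_iff hA he).1 (h.wk x hx).1).mem wf hs)))
    simp only [this, List.length_singleton] at ht ⊢
    nlinarith

/-- the weights `1 + degree` -/
def degR (adj : Arr (List ℕ)) (V : List ℕ) : R (Arr ℕ) :=
  foldL (fun x a => lenL (adj.get x) >>= fun n => pure (a.set x (n + 1))) V (Arr.cst 0)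

theorem sp_degR (hV : V.Nodup) : Sp g (degR adj V) fun a t =>
    (∀ x ∈ V, a.get x = 1 + (adj.get x).length) ∧
      t ≤ 2 * ∑ x ∈ V.toFinset, (1 + (adj.get x).length) + 1 := by
  refine (sp_foldL' (fun l a => ∀ x ∈ V, x ∈ l ∨ a.get x = 1 + (adj.get x).length)
    (fun x => (adj.get x).length + 1) (fun y l a k => (sp_lenL _).bind fun n t ⟨e, c⟩ =>
      ⟨fun x hx => ?_, c.le⟩) fun x hx => .inl hx).mono fun a t k =>
        ⟨fun x hx => by simpa using k.1 x hx, k.2.trans ?_⟩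
  · rw [← List.sum_toFinset _ hV, mul_sum]
    exact Nat.add_le_add_right (sum_le_sum fun x _ => by omega) 1
  · rw [Arr.get_set]
    split_ifs with h
    · right; rw [h, e, add_comm]
    · exact (k x hx).imp_left fun m => (List.mem_cons.1 m).resolve_left h

/-- the format of the interface -/
def toCol (c : Cl) : R Lt.Col :=
  revL c.2.2.2 >>= fun ord => setAllP (fun _ => true) ord (Arr.cst false) >>= fun ins =>
    setAllP (fun x => c.1.get x - 1) ord (Arr.cst 0) >>= fun cen =>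
    setAllP (fun x => (c.2.1.get x).2) ord (Arr.cst 0) >>= fun pq =>
      pure ⟨ord, ins, cen, pq, c.2.2.1⟩

theorem pl_of {up cen dep : ℕ → ℕ} {l : List ℕ}
    (h : l.Pairwise fun x y => cen y = cen x → dep y ≤ dep x) (l0 : List ℕ)
    (h0 : ∀ y ∈ l0, ∀ x ∈ l, cen x = cen y → dep x ≤ dep y)
    (hu : ∀ x ∈ l, up x = x ∨ up x ∈ l0 ++ l ∧ cen (up x) = cen x ∧ dep (up x) < dep x) :
    PL up l := by
  induction l generalizing l0 with
  | nil => trivial
  | cons x l ih =>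
    rw [List.pairwise_cons] at h
    refine ⟨(hu x List.mem_cons_self).imp_right fun ⟨m, e, d⟩ => ?_,
      ih h.2 (l0 ++ [x]) (fun y hy z hz => ?_) fun y hy => ?_⟩
    · rcases List.mem_append.1 m with m | m
      · have := h0 _ m x List.mem_cons_self e.symm; omega
      · exact (List.mem_cons.1 m).resolve_left fun k => by rw [k] at d; omega
    · rcases List.mem_append.1 hy with m | m
      · exact h0 y m z (List.mem_cons_of_mem _ hz)
      · rw [List.mem_singleton.1 m]; exact h.1 z hz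
    · simpa using hu y (List.mem_cons_of_mem _ hy)

theorem sp_toCol (hA : Adj G adj.get) (hG : G.Ok c) {β Rd : ℕ} {cl : Cl}
    (h : ClOk (ug G adj.get) V.toFinset β cl) (hβ : β ≤ Rd) :
    Sp g (toCol cl) fun K t => K.Ok G V Rd ∧ (∀ x, x ∈ K.ord ↔ cl.1.get x ≠ 0) ∧
      (∀ x ∈ K.ord, K.cen.get x = cl.1.get x - 1) ∧ t ≤ 4 * V.length + 4 := by
  refine (sp_revL _).bind fun ord t0 ⟨e0, c0⟩ => (sp_setAllP _ _ _).bind fun ins t1 ⟨e1, c1⟩ =>
    (sp_setAllP _ _ _).bind fun cen t2 ⟨e2, c2⟩ => (sp_setAllP _ _ _).bind fun pq t3 ⟨e3, c3⟩ => ?_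
  have mo : ∀ x, x ∈ ord ↔ x ∈ cl.2.2.2 := fun x => by rw [e0, List.mem_reverse]
  have ec : ∀ x ∈ ord, cen.get x = cl.1.get x - 1 := fun x hx => by rw [e2, if_pos hx]
  have nz : ∀ x ∈ ord, cl.1.get x ≠ 0 := fun x hx => (h.mem x).1 ((mo x).1 hx)
  have tr : ∀ x ∈ ord, cen.get x ≠ x → Slot G (pq.get x) ∧ vq G.ed (opp (pq.get x)) = x ∧
      vq G.ed (pq.get x) ∈ ord ∧ cl.1.get (vq G.ed (pq.get x)) = cl.1.get x ∧
      cl.2.2.1.get x = cl.2.2.1.get (vq G.ed (pq.get x)) + (G.ed (pq.get x / 3)).l := by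
    intro x hx k
    rw [ec x hx] at k
    obtain ⟨p1, p2, p3, p4⟩ := h.par x ((mo x).1 hx) (by omega)
    have s := ((hA _).2 _).1 p2
    rw [e3, if_pos hx, s.2]
    exact ⟨s.1, p3, (mo _).2 ((h.mem _).2 (p1 ▸ nz x hx)), p1, p4⟩
  have ln : cl.2.2.2.length ≤ V.length := by
    rw [← List.toFinset_card_of_nodup h.nd]
    exact (card_le_card fun x hx => h.sub x (List.mem_toFinset.1 hx)).trans (List.toFinset_card_le _)
  refine ⟨⟨e0 ▸ List.nodup_reverse.2 h.nd, fun x hx => List.mem_toFinset.1 (h.sub x ((mo x).1 hx)),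
    fun x => by simp [e1], ?_, fun x hx k => ?_, fun x hx k => ?_,
    fun x hx => (h.rad x ((mo x).1 hx)).trans hβ⟩, fun x => (mo x).trans (h.mem x), ec, ?_⟩
  · refine pl_of (cen := cl.1.get) (dep := cl.2.2.1.get) (by
      rw [e0, List.pairwise_reverse]; exact h.srt) [] (by simp) fun x hx => ?_
    unfold Col.up
    split_ifs with k
    · exact .inl rfl
    · obtain ⟨p1, -, p3, p4, p5⟩ := tr x hx k
      have := (hG.2.2 _ p1.2).2.2.2.1
      exact .inr ⟨p3, p4, by simp only; omega⟩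
  · have := nz x hx
    have := ec x hx
    exact (h.ctr x x (by simp only at k; omega)).2
  · obtain ⟨p1, p2, p3, p4, p5⟩ := tr x hx k
    exact ⟨p1, p2, p3, by simp only; rw [ec _ p3, ec _ hx, p4], p5⟩
  · have : ord.length = cl.2.2.2.length := by rw [e0, List.length_reverse]
    omega

/-- the empty colour -/
def col0 : Lt.Col := ⟨[], Arr.cst false, Arr.cst 0, Arr.cst 0, Arr.cst 0⟩

/-- **the cover of scale `r`** with `s` colours (`|V| + 2 |E| < 2 ^ k`, radii below `2 ^ B`) -/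
def coverR (ed : Arr Ed) (adj : Arr (List ℕ)) (V : List ℕ) (s k B r : ℕ) : R (Arr Lt.Col) :=
  degR adj V >>= fun dg => sumL (fun x => dg.get x) V >>= fun W => nat (2 * r) >>= fun q =>
    nat (2 * k) >>= fun kk =>
    forN (fun i (p : List ℕ × Arr Lt.Col) =>
      colR (blR ed adj B (W + 2)) (fun x => dg.get x) q kk p.1 >>= fun o =>
        toCol o.2 >>= fun K => pure (o.1, p.2.set i K)) s 0 (V, Arr.cst col0) >>= fun p => pure p.2

theorem sp_coverR (hV : Vtx G V) (hA : Adj G adj.get) (hG : G.Ok c)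
    (he : ∀ e ∈ G.E, ed.get e = G.ed e) {s k B r Rd : ℕ} (hk : V.length + 2 * G.E.card < 2 ^ k)
    (hs : k ≤ s) (hB : 8 * k * r < 2 ^ B) (hR : 8 * k * r ≤ Rd) (hX : 2 ^ k ≤ g.X)
    (hX1 : 8 * k * r ≤ g.X) (hX2 : 2 * r ≤ g.X) (hX3 : 2 * k ≤ g.X) :
    Sp g (coverR ed adj V s k B r) fun C t => Cover G V s r Rd C.get ∧
      t ≤ (s * (18 * k * (B + 4) + 44) + 5) * (V.length + 2 * G.E.card + 1) := by
  have hw := sum_adj_le hV hA
  refine (sp_degR hV.1).bind fun dg t0 ⟨e0, c0⟩ => ?_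
  have e : ∑ x ∈ V.toFinset, dg.get x = ∑ x ∈ V.toFinset, (1 + (adj.get x).length) :=
    sum_congr rfl fun x hx => e0 x (List.mem_toFinset.1 hx)
  have e' : (V.map fun x => dg.get x).sum = ∑ x ∈ V.toFinset, dg.get x :=
    (List.sum_toFinset _ hV.1).symm
  refine (sp_sumL _ _ (by omega)).bind fun W t1 ⟨e1, c1⟩ => ?_
  simp only [sp_bind (m := nat _), sp_nat]
  have r8 : 2 * (2 * r) * (2 * k) = 8 * k * r := by ring
  have H : Hyp g (ug G adj.get) V.toFinset (blR ed adj B (W + 2)) (fun x => dg.get x) (2 * r)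
      (2 * k) (3 * B + 7) :=
    ⟨ug_wf hV hA hG, bspec hV hA hG he e0 (r8 ▸ hB) (by omega),
      fun x hx => by rw [e0 x (List.mem_toFinset.1 hx)]; omega,
      by rw [mul_comm 2 k, pow_mul]; exact Nat.pow_lt_pow_left (by omega) two_ne_zero,
      by omega, r8 ▸ hX1⟩
  refine ⟨hX2, hX3, (sp_forN' (fun i (p : List ℕ × Arr Lt.Col) => p.1.Nodup ∧ (∀ x ∈ p.1, x ∈ V) ∧
    2 ^ i * p.1.length ≤ V.length ∧ (∀ j < i, (p.2.get j).Ok G V Rd) ∧
    ∀ v ∈ V, v ∈ p.1 ∨ ∃ j < i, ∀ x d, Lt.Near G v x d → d ≤ 2 * r →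
      x ∈ (p.2.get j).ord ∧ (p.2.get j).cen.get x = (p.2.get j).cen.get v)
    ((18 * k * (B + 4) + 43) * (V.length + 2 * G.E.card + 1))
    (fun i p _ _ ⟨k1, k2, k3, k4, k5⟩ => (sp_colR H k1 fun x hx =>
      List.mem_toFinset.2 (k2 x hx)).bind fun o t2 ⟨h1, h2, h3, h4, h5, c2⟩ =>
        (sp_toCol hA hG h1 (r8 ▸ hR)).bind fun K t3 ⟨g1, g2, g3, c3⟩ =>
          ⟨⟨h2, fun x hx => List.mem_toFinset.1 (h3 x hx), ?_, fun j hj => ?_, fun v hv => ?_⟩, ?_⟩)
    ⟨hV.1, fun _ => id, by simp, by simp, fun v hv => .inl hv⟩).bind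
      fun p t ⟨⟨_, _, k3, k4, k5⟩, c2⟩ => ⟨⟨by simpa using k4, fun v hv => ?_⟩, ?_⟩⟩
  · have z : p.1 = [] := by
      by_contra z
      have := List.length_pos_iff.2 z
      have := Nat.pow_le_pow_right two_pos hs
      rw [zero_add] at k3
      nlinarith
    simpa [z] using k5 v hv
  · generalize 18 * k * (B + 4) = y at *
    nlinarith
  · rw [pow_succ, mul_assoc]; exact (Nat.mul_le_mul_left _ h4).trans k3
  · simp only [Arr.get_set]
    split_ifs with a
    · exact g1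
    · exact k4 j (by omega)
  · rcases k5 v hv with m | ⟨j, hj, m⟩
    · refine (h5 v m).imp_right fun cv => ⟨i, by omega, fun x d w hd => ?_⟩
      have := cv.2 x ⟨d, hd, wk_of_near hA w⟩
      have mx := (g2 x).2 (this ▸ cv.1)
      simp only [Arr.get_set_self]
      exact ⟨mx, by rw [g3 x mx, g3 v ((g2 v).2 cv.1), this]⟩
    · exact .inr ⟨j, by omega, by simpa only [Arr.get_set_ne _ hj.ne] using m⟩
  · have : p.1.length ≤ V.length := le_trans (Nat.le_mul_of_pos_left _ (by positivity)) k3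
    have a : 3 * (2 * k) * (3 * B + 7 + 5) = 18 * k * (B + 4) := by ring
    have := Nat.mul_le_mul_left (18 * k * (B + 4) + 31) (e ▸ hw)
    rw [a] at c2
    generalize 18 * k * (B + 4) = y at *
    nlinarith

/-- **the components** (`lb` bounds the lengths) -/
def topR (ed : Arr Ed) (adj : Arr (List ℕ)) (V : List ℕ) (B lb : ℕ) : R Lt.Col :=
  degR adj V >>= fun dg => sumL (fun x => dg.get x) V >>= fun W => lenL V >>= fun n =>
    nat (n * lb) >>= fun Q => compsR (blR ed adj B (W + 2)) Q V >>= toCol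

theorem sp_topR (hV : Vtx G V) (hA : Adj G adj.get) (hG : G.Ok c)
    (he : ∀ e ∈ G.E, ed.get e = G.ed e) {B Rd : ℕ} (hB : V.length * c.lb < 2 ^ B)
    (hR : V.length * c.lb ≤ Rd) (hX : V.length + 2 * G.E.card ≤ g.X)
    (hX1 : V.length * c.lb ≤ g.X) :
    Sp g (topR ed adj V B c.lb) fun K t => TopC G V Rd K ∧
      t ≤ (6 * B + 32) * (V.length + 2 * G.E.card + 1) := by
  have hw := sum_adj_le hV hA
  refine (sp_degR hV.1).bind fun dg t0 ⟨e0, c0⟩ => ?_
  have e : ∑ x ∈ V.toFinset, dg.get x = ∑ x ∈ V.toFinset, (1 + (adj.get x).length) :=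
    sum_congr rfl fun x hx => e0 x (List.mem_toFinset.1 hx)
  have e' : (V.map fun x => dg.get x).sum = ∑ x ∈ V.toFinset, dg.get x :=
    (List.sum_toFinset _ hV.1).symm
  refine (sp_sumL _ _ (by omega)).bind fun W t1 ⟨e1, c1⟩ => (sp_lenL V).bind fun n t2 ⟨e2, c2⟩ =>
    sp_bind.2 (sp_nat.2 ⟨e2 ▸ hX1, ?_⟩)
  subst e2
  refine (sp_compsR (wt := fun x => dg.get x) (lb := c.lb) (ug_wf hV hA hG)
    (bspec hV hA hG he e0 hB (by omega)) (fun x hx => by rw [e0 x (List.mem_toFinset.1 hx)]; omega)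
    (fun x _ q hq => (hG.2.2 _ (((hA x).2 q).1 hq).1.2).2.2.2.2.1)
    (by rw [List.toFinset_card_of_nodup hV.1]) fun x hx => List.mem_toFinset.2 hx).bind
      fun cl t3 ⟨h1, h2, h3, c3⟩ => (sp_toCol hA hG h1 hR).mono fun K t4 ⟨g1, g2, g3, c4⟩ =>
        ⟨⟨g1, fun v hv => (g2 v).2 (h3 v hv), fun e he => ?_⟩, ?_⟩
  · have s : Slot G (3 * e + 1) := ⟨by omega, by rwa [show (3 * e + 1) / 3 = e by omega]⟩
    have a : vq G.ed (3 * e + 1) = (G.ed e).a := by
      rw [vq, if_neg (by omega), if_pos (by omega), show (3 * e + 1) / 3 = e by omega]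
    have b : vq G.ed (opp (3 * e + 1)) = (G.ed e).b := by
      rw [opp, if_pos (by omega), vq, if_neg (by omega), if_neg (by omega),
        show (3 * e + 1 + 1) / 3 = e by omega]
    have va : (G.ed e).a ∈ V := (hV.2 _).2 ⟨_, s, a⟩
    have vb : (G.ed e).b ∈ V := (hV.2 _).2 ⟨_, slot_opp s, b⟩
    have := h2 _ (List.mem_toFinset.2 va) (h3 _ va) _ (((hA _).2 _).2 ⟨s, a⟩)
    simp only [ug, b] at this
    rw [g3 _ ((g2 _).2 (h3 _ va)), g3 _ ((g2 _).2 (h3 _ vb)), this]
  · have := Nat.mul_le_mul_left (2 * (3 * B + 7) + 8) (e ▸ hw)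
    nlinarith

end Crest.Agent.N325.Lt.Cv
end

-- ▼ part N325/Lt/Nodes
section

/-! Row 325 (helper16): the program that lists the nodes of the lifted forest. -/

set_option autoImplicit false

namespace Crest.Agent.N325.Lt
open Tw

/-- one level up -/
def upS (P : Pm) (C : Arr (Arr Col)) (i : ℕ) (s : ℕ × ℕ × Bool) : ℕ × ℕ × Bool :=
  (((C.get i).get (s.2.1 % P.s)).cen.get s.1, s.2.1 / P.s,
    s.2.2 && ((C.get i).get (s.2.1 % P.s)).ins.get s.1)

/-- does `(v, w)` exist on level `i`? -/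
def valR (P : Pm) (C : Arr (Arr Col)) (i v w : ℕ) : R Bool := do
  let s ← forP (upS P C) (P.D - i) i (v, w, true)
  pure (s.2.2 && decide (s.2.1 = 0) && ((C.get P.D).get 0).ins.get s.1)

/-- the nodes of one vertex -/
def grpR (P : Pm) (adj : Arr (List ℕ)) (C : Arr (Arr Col)) (i w v : ℕ) : R (List ℕ) := do
  let b ← valR P C i v w
  if b then do
    let m ← nat (3 * v)
    let a ← mapL (fun q => nat (P.nd q i w)) (m :: adj.get v)
    revL a
  else pure []

/-- **the nodes, children first** -/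
def nodesR (P : Pm) (adj : Arr (List ℕ)) (C : Arr (Arr Col)) : R (List ℕ) := do
  let I ← rangeL (P.D + 1) 0
  flatMapL (fun i => do
    let W ← rangeL (P.nW i) 0
    flatMapL (fun w => flatMapL (grpR P adj C i w) ((C.get i).get (w % P.s)).ord) W) I

variable {g : Gl} {G : Gr} {V : List ℕ} {P : Pm} {C : Arr (Arr Col)} {adj : Arr (List ℕ)}
  {pv : ℕ → ℕ} {c : Bd}

theorem foldl_upS (hC : Covers G V P fun i j => (C.get i).get j) (hP : P.Ok) (j i v w : ℕ)
    (b : Bool) (h : i + j = P.D) {s : ℕ × ℕ × Bool}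
    (e : s = (List.range' i j).foldl (fun s j => upS P C j s) (v, w, b)) :
    (s.2.2 && decide (s.2.1 = 0) && ((C.get P.D).get 0).ins.get s.1) = true ↔
      b = true ∧ val P (fun i j => (C.get i).get j) j i v w := by
  induction j generalizing i v w b with
  | zero =>
    obtain rfl : i = P.D := h
    have := hC.2.1.ins v
    simp only [e, List.range'_zero, List.foldl_nil, Bool.and_eq_true, decide_eq_true_eq, val, this]
    tauto
  | succ j ih =>
    have := ((hC.1 i (by omega)).1 (w % P.s) (Nat.mod_lt _ hP.s1)).ins v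
    rw [ih (i + 1) _ _ _ (by omega) e]
    simp only [val, Bool.and_eq_true, this, and_assoc]

theorem sp_grpR (hC : Covers G V P fun i j => (C.get i).get j) (hP : P.Ok) (hV : Vtx G V)
    (hA : Adj G adj.get) (hG : G.Ok c) (hX : (3 * c.nb + 3) * (P.D + 2) * P.S ≤ g.X) {i : ℕ}
    (hi : i ≤ P.D) (w v : ℕ) :
    Sp g (grpR P adj C i w v) fun r t => r = grpF P (fun i j => (C.get i).get j) adj.get i w v ∧
      t ≤ (P.D + 7) * (1 + (adj.get v).length) := by
  have m := fun x => (mem_grpF (x := x) (w := w) (v := v) hC hP hA hi).1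
  refine sp_bind.2 ((sp_forP _ _ _ _).bind fun s t ⟨h, k⟩ => ?_)
  have e := foldl_upS hC hP _ i v w true (by omega) h
  unfold grpF at m ⊢
  refine sp_ite.2 ⟨fun b => ?_, fun b => ⟨(if_neg fun x => b (e.2 ⟨rfl, x⟩)).symm, by
    rw [mul_add]; omega⟩⟩
  simp only [if_pos (e.1 b).2, List.mem_reverse] at m ⊢
  have hb := fun q hq => ((m _ (List.mem_map_of_mem (a := q) hq)).1.lt hP hV hC hG).le.trans hX
  have h0 : 3 * v ≤ P.nd (3 * v) i w := by
    have := hP.S_pos
    unfold Pm.nd; nlinarith [Nat.zero_le (3 * v * P.D * P.S), Nat.zero_le (i * P.S)]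
  refine sp_bind.2 (sp_nat.2 ⟨h0.trans (hb _ (by simp)), (sp_mapL' (fun q => P.nd q i w) (fun _ => 0)
    fun q hq => sp_nat.2 ⟨hb q hq, rfl, le_rfl⟩).bind fun a u ⟨h1, k1⟩ => (sp_revL a).mono
      fun r u' ⟨h2, k2⟩ => ⟨by rw [h2, h1], ?_⟩⟩)
  simp only [h1, List.length_map, List.length_cons, List.map_const', List.sum_replicate,
    smul_eq_mul] at k1 k2
  nlinarith [Nat.zero_le (P.D * (adj.get v).length), Nat.sub_le P.D i]

theorem sp_nodesR (hC : Covers G V P fun i j => (C.get i).get j) (hP : P.Ok) (hV : Vtx G V)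
    (hA : Adj G adj.get) (hG : G.Ok c) (hpv : Chain G pv) (hch : ∀ v, Ch pv (3 * v) (adj.get v))
    (hX : (3 * c.nb + 3) * (P.D + 2) * P.S ≤ g.X) :
    Sp g (nodesR P adj C) fun r t => r.Nodup ∧
      (∀ x, x ∈ r ↔ Node G P (fun i j => (C.get i).get j) x) ∧
      PL (parF P (fun i j => (C.get i).get j) pv) r ∧
      t ≤ (P.D + 1) * P.S * ((P.D + 18) * (V.length + 2 * G.E.card + 1)) := by
  set n := V.length + 2 * G.E.card
  set C' : ℕ → ℕ → Col := fun i j => (C.get i).get j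
  have hS := hP.S_pos
  have hW : ∀ i, P.nW i ≤ P.S := fun i => by unfold Pm.nW; split_ifs <;> omega
  have vol : ∀ i ≤ P.D, ∀ w < P.nW i, ((C' i (w % P.s)).ord.map fun v =>
      1 + (adj.get v).length).sum ≤ n := fun i hi w hw => by
    obtain ⟨_, k⟩ := col_nW hC hP hi hw
    rw [← List.sum_toFinset _ k.nd]
    exact (Finset.sum_le_sum_of_subset fun x hx => List.mem_toFinset.2
      (k.sub x (List.mem_toFinset.1 hx))).trans (Cv.sum_adj_le hV hA)
  have l1 : ∀ i ≤ P.D, ∀ w < P.nW i,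
      ((C' i (w % P.s)).ord.flatMap (grpF P C' adj.get i w)).length ≤ n := fun i hi w hw => by
    rw [List.length_flatMap]
    refine (List.sum_le_sum fun v _ => ?_).trans (vol i hi w hw)
    unfold grpF; split_ifs <;> simp [add_comm]
  have l2 : ∀ i ≤ P.D, ((List.range' 0 (P.nW i)).flatMap fun w =>
      (C' i (w % P.s)).ord.flatMap (grpF P C' adj.get i w)).length ≤ P.S * n := fun i hi => by
    rw [List.length_flatMap]
    exact (obj_sum_le fun w hw => l1 i hi w (by simpa using hw)).trans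
      (Nat.mul_le_mul_right _ (by simpa using hW i))
  refine (sp_rangeL _ _).bind fun I t0 ⟨h0, k0⟩ => (sp_flatMapL (fun i =>
    (List.range' 0 (P.nW i)).flatMap fun w => (C' i (w % P.s)).ord.flatMap (grpF P C' adj.get i w))
    (fun _ => P.S * ((P.D + 13) * n + 6) + 4) fun i hi => ?_).mono fun r t ⟨h, k⟩ => ?_
  · have hi : i ≤ P.D := by simp [h0] at hi; omega
    refine (sp_rangeL _ _).bind fun W t1 ⟨h1, k1⟩ => (sp_flatMapL (fun w =>
      (C' i (w % P.s)).ord.flatMap (grpF P C' adj.get i w)) (fun _ => (P.D + 11) * n + 2)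
      fun w hw => ?_).mono fun r t ⟨h, k⟩ => ⟨h1 ▸ h, ?_⟩
    · have hw : w < P.nW i := by simpa [h1] using hw
      refine (sp_flatMapL _ _ fun v _ => sp_grpR hC hP hV hA hG hX hi w v).mono
        fun r t ⟨h, k⟩ => ⟨h, k.trans ?_⟩
      have a := vol i hi w hw
      have b := l1 i hi w hw
      have d : (C' i (w % P.s)).ord.length ≤ n := le_trans (by
        simpa using List.sum_le_sum (l := (C' i (w % P.s)).ord) (f := fun _ => 1)
          (g := fun v => 1 + (adj.get v).length) fun _ _ => Nat.le_add_right _ _) a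
      rw [List.sum_map_mul_left]
      have := Nat.mul_le_mul_left (P.D + 7) a
      simp only [C'] at *
      nlinarith
    · have a := l2 i hi
      have b := Nat.mul_le_mul_right ((P.D + 11) * n + 2) (hW i)
      have := hW i
      simp only [h1, List.map_const', List.sum_replicate, smul_eq_mul, List.length_range'] at k
      nlinarith
  · have e : r = ordF P C' adj.get := by rw [h, h0]; rfl
    have a := obj_sum_le (l := I) fun i hi => l2 i (by simp [h0] at hi; omega)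
    rw [← List.length_flatMap] at a
    obtain ⟨s1, s2, s3⟩ := ordF_spec hC hP hA (pos_of_ok hG) hpv hch
    refine ⟨e ▸ s1, e ▸ s2, e ▸ s3, ?_⟩
    simp only [h0, List.map_const', List.sum_replicate, smul_eq_mul, List.length_range'] at k a
    have b : P.S * ((P.D + 13) * n + 6) + 4 + 2 * (P.S * n) + 8 ≤ P.S * ((P.D + 18) * (n + 1)) := by
      nlinarith [Nat.zero_le (P.S * P.D), Nat.zero_le (P.S * n)]
    have := Nat.mul_le_mul_left (P.D + 1) b
    rw [mul_assoc]
    nlinarith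

variable {α : Type} [Rp α]

@[fun_prop] theorem impl_valR {P : α → Pm} {C : α → Arr (Arr Col)} {i v w : α → ℕ}
    (h1 : Pu true P) (h2 : Pu true C) (h3 : Pu true i) (h4 : Pu true v) (h5 : Pu true w) :
    Impl fun a => valR (P a) (C a) (i a) (v a) (w a) := by impl

@[fun_prop] theorem impl_grpR {P : α → Pm} {adj : α → Arr (List ℕ)} {C : α → Arr (Arr Col)}
    {i v w : α → ℕ} (h1 : Pu true P) (h0 : Pu true adj) (h2 : Pu true C) (h3 : Pu true i)
    (h4 : Pu true v) (h5 : Pu true w) :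
    Impl fun a => grpR (P a) (adj a) (C a) (i a) (w a) (v a) := by impl

@[fun_prop] theorem impl_nodesR {P : α → Pm} {adj : α → Arr (List ℕ)} {C : α → Arr (Arr Col)}
    (h1 : Pu true P) (h0 : Pu true adj) (h2 : Pu true C) :
    Impl fun a => nodesR (P a) (adj a) (C a) := by impl

end Crest.Agent.N325.Lt
end

-- ▼ part N325/Lt/CarveImpl
section

/-!
# Row 325 (helper29): the covers are implementable
-/

set_option autoImplicit false

namespace Crest.Agent.N325.Lt.Cv
open Tw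

variable {α : Type} [Rp α]

@[fun_prop] theorem impl_blR {ed : α → Arr Ed} {adj : α → Arr (List ℕ)} {B fu s r : α → ℕ}
    {cen : α → Arr ℕ} (h1 : Pu true ed) (h2 : Pu true adj) (h3 : Pu true B) (h4 : Pu true fu)
    (h5 : Pu true cen) (h6 : Pu true s) (h7 : Pu true r) :
    Impl fun a => blR (ed a) (adj a) (B a) (fu a) (cen a) (s a) (r a) := by
  unfold blR dgOf; impl

@[fun_prop] theorem impl_growR {bl : α → Arr ℕ → ℕ → ℕ → R Bl} {wt : α → ℕ → ℕ} {q kk v : α → ℕ}
    {cen ys : α → Arr ℕ} (h1 : Impl fun p : α × Arr ℕ × ℕ × ℕ => bl p.1 p.2.1 p.2.2.1 p.2.2.2)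
    (h2 : Pu true fun p : α × ℕ => wt p.1 p.2) (h3 : Pu true q) (h4 : Pu true kk)
    (h5 : Pu true cen) (h6 : Pu true ys) (h7 : Pu true v) :
    Impl fun a => growR (bl a) (wt a) (q a) (kk a) (cen a) (ys a) (v a) := by
  unfold growR tryR; impl

@[fun_prop] theorem impl_colR {bl : α → Arr ℕ → ℕ → ℕ → R Bl} {wt : α → ℕ → ℕ} {q kk : α → ℕ}
    {U : α → List ℕ} (h1 : Impl fun p : α × Arr ℕ × ℕ × ℕ => bl p.1 p.2.1 p.2.2.1 p.2.2.2)
    (h2 : Pu true fun p : α × ℕ => wt p.1 p.2) (h3 : Pu true q) (h4 : Pu true kk)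
    (h5 : Pu true U) : Impl fun a => colR (bl a) (wt a) (q a) (kk a) (U a) := by
  unfold colR carve; impl

@[fun_prop] theorem impl_compsR {bl : α → Arr ℕ → ℕ → ℕ → R Bl} {Q : α → ℕ}
    {U : α → List ℕ} (h1 : Impl fun p : α × Arr ℕ × ℕ × ℕ => bl p.1 p.2.1 p.2.2.1 p.2.2.2)
    (h3 : Pu true Q) (h5 : Pu true U) : Impl fun a => compsR (bl a) (Q a) (U a) := by
  unfold compsR compR; impl

@[fun_prop] theorem impl_degR {adj : α → Arr (List ℕ)} {V : α → List ℕ} (h1 : Pu true adj)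
    (h2 : Pu true V) : Impl fun a => degR (adj a) (V a) := by
  unfold degR; impl

@[fun_prop] theorem impl_toCol {c : α → Cl} (h : Pu true c) : Impl fun a => toCol (c a) := by
  unfold toCol; impl

@[fun_prop] theorem impl_coverR {ed : α → Arr Ed} {adj : α → Arr (List ℕ)} {V : α → List ℕ}
    {s k B r : α → ℕ} (h1 : Pu true ed) (h2 : Pu true adj) (h3 : Pu true V) (h4 : Pu true s)
    (h5 : Pu true k) (h6 : Pu true B) (h7 : Pu true r) :
    Impl fun a => coverR (ed a) (adj a) (V a) (s a) (k a) (B a) (r a) := by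
  unfold coverR col0; impl

@[fun_prop] theorem impl_topR {ed : α → Arr Ed} {adj : α → Arr (List ℕ)} {V : α → List ℕ}
    {B lb : α → ℕ} (h1 : Pu true ed) (h2 : Pu true adj) (h3 : Pu true V) (h4 : Pu true B)
    (h5 : Pu true lb) : Impl fun a => topR (ed a) (adj a) (V a) (B a) (lb a) := by
  unfold topR; impl

end Crest.Agent.N325.Lt.Cv
end

-- ▼ part N325/Lt/Covs
section

/-!
# Row 325 (helper29): the covers on all levels
-/

set_option autoImplicit false

namespace Crest.Agent.N325.Lt.Cv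
open Tw

/-- **the covers of all scales and the components** -/
def coversR (ed : Arr Ed) (adj : Arr (List ℕ)) (V : List ℕ) (P : Pm) (k B lb : ℕ) :
    R (Arr (Arr Lt.Col)) :=
  forN (fun i (p : ℕ × Arr (Arr Lt.Col)) => coverR ed adj V P.s k B p.1 >>= fun C =>
      nat (p.1 * P.ρ) >>= fun r => pure (r, p.2.set i C)) P.D 0 (1, Arr.cst (Arr.cst col0)) >>=
    fun p => topR ed adj V B lb >>= fun K => pure (p.2.set P.D (Arr.cst K))

theorem sp_coversR {g : Gl} {G : Gr} {c : Bd} {V : List ℕ} {ed : Arr Ed} {adj : Arr (List ℕ)}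
    {P : Pm} {k B : ℕ} (hV : Vtx G V) (hA : Adj G adj.get) (hG : G.Ok c)
    (he : ∀ e ∈ G.E, ed.get e = G.ed e) (hP : P.Ok) (hk : V.length + 2 * G.E.card < 2 ^ k)
    (k1 : 1 ≤ k) (hs : k ≤ P.s) (hβ : 8 * k ≤ P.β) (hl : V.length * c.lb ≤ P.β * P.ρ ^ P.D)
    (hB : P.β * P.ρ ^ P.D < 2 ^ B) (hX : 2 ^ k ≤ g.X) (hX1 : P.β * P.ρ ^ P.D ≤ g.X) :
    Sp g (coversR ed adj V P k B c.lb) fun C t => Covers G V P (fun i j => (C.get i).get j) ∧
      t ≤ (P.D + 1) * (P.s * (18 * k * (B + 4) + 44) + 6) * (V.length + 2 * G.E.card + 1) := by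
  have ρ1 : 1 ≤ P.ρ := le_trans one_le_two hP.ρ2
  have pw : ∀ i ≤ P.D, 8 * k * P.ρ ^ i ≤ P.β * P.ρ ^ P.D := fun i hi =>
    Nat.mul_le_mul hβ (Nat.pow_le_pow_right ρ1 hi)
  refine (sp_forN' (fun i (p : ℕ × Arr (Arr Lt.Col)) => p.1 = P.ρ ^ i ∧
    ∀ j < i, Cover G V P.s (P.ρ ^ j) (P.β * P.ρ ^ j) (p.2.get j).get)
    ((P.s * (18 * k * (B + 4) + 44) + 5) * (V.length + 2 * G.E.card + 1))
    (fun i p _ hi ⟨e, h⟩ => ?_) ⟨rfl, by simp⟩).bind fun p t ⟨⟨_, h⟩, c1⟩ =>
      (sp_topR hV hA hG he (hl.trans_lt hB) hl (by omega) (hl.trans hX1)).bind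
        fun K u ⟨h2, c2⟩ => ⟨⟨fun i hi => ?_, ?_⟩, ?_⟩
  · have a := pw i (by omega)
    have a' := pw (i + 1) (by omega)
    have p1 : 1 ≤ P.ρ ^ i := Nat.one_le_pow _ _ ρ1
    rw [e]
    refine (sp_coverR hV hA hG he hk hs (a.trans_lt hB) (Nat.mul_le_mul_right _ hβ) hX
      (a.trans hX1) (by nlinarith) (by nlinarith)).bind fun C t ⟨h1, c1⟩ =>
        sp_bind.2 (sp_nat.2 ⟨?_, ⟨(pow_succ _ _).symm, fun j hj => ?_⟩, by simpa using c1⟩)
    · rw [← pow_succ]; nlinarith [Nat.zero_le (P.ρ ^ (i + 1))]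
    · simp only [Arr.get_set]
      split_ifs with a
      · rw [a]; exact h1
      · exact h j (by omega)
  · simp only [Arr.get_set_ne _ hi.ne]; exact h i (by omega)
  · simpa only [Arr.get_set_self, Arr.get_cst] using h2
  · have := hP.s1
    have h1 : 18 * (B + 4) + 44 ≤ P.s * (18 * k * (B + 4) + 44) :=
      le_trans (by nlinarith) (Nat.le_mul_of_pos_left _ this)
    have h2 := Nat.mul_le_mul_right (V.length + 2 * G.E.card + 1)
      (show 6 * B + 32 + 1 ≤ P.s * (18 * k * (B + 4) + 44) + 6 by omega)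
    generalize P.s * (18 * k * (B + 4) + 44) = y at *
    nlinarith [Nat.zero_le (P.D * (V.length + 2 * G.E.card))]

@[fun_prop] theorem impl_coversR {α : Type} [Rp α] {ed : α → Arr Ed} {adj : α → Arr (List ℕ)}
    {V : α → List ℕ} {P : α → Pm} {k B lb : α → ℕ} (h1 : Pu true ed) (h2 : Pu true adj)
    (h3 : Pu true V) (h4 : Pu true P) (h5 : Pu true k) (h6 : Pu true B) (h7 : Pu true lb) :
    Impl fun a => coversR (ed a) (adj a) (V a) (P a) (k a) (B a) (lb a) := by
  unfold coversR col0; impl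

end Crest.Agent.N325.Lt.Cv
end

-- ▼ part N325/Lt/Lift

/-!
# Row 325 (helper29): the program of the lifted forest
-/

set_option autoImplicit false
open Finset

namespace Crest.Agent.N325.Lt
open Tw

/-- **the lifted forest** of the graph with the edge list `l` -/
def liftR (P : Pm) (k B lb : ℕ) (l : List (ℕ × Ed)) : R LF :=
  prepR l >>= fun p => Cv.coversR p.1 p.2.1 p.2.2.1 P k B lb >>= fun C =>
    nodesR P p.2.1 C >>= fun ord => fillR P p.1 p.2.2.2 C ord >>= fun T => objR P l T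

/-- the numeric hypotheses -/
structure LNum (X : ℕ) (P : Pm) (c : Bd) (k B : ℕ) : Prop where
  hP : P.Ok
  hk : 4 * c.m < 2 ^ k
  k1 : 1 ≤ k
  hs : k ≤ P.s
  hβ : 8 * k ≤ P.β
  hl : 2 * c.m * c.lb ≤ P.β * P.ρ ^ P.D
  hB : P.β * P.ρ ^ P.D < 2 ^ B
  X1 : 2 ^ k ≤ X
  X2 : P.β * P.ρ ^ P.D ≤ X
  X3 : (3 * c.nb + 3) * (P.D + 2) * P.S ≤ X
  X4 : 4 * c.m * (P.D + 1) * P.S * (c.lb + 1) ≤ X
  X5 : 4 * c.m * (P.D + 1) * P.S * c.gb ≤ X

/-- the time -/
def liftT (P : Pm) (m k B : ℕ) : ℕ :=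
  (4 * m + 1) * ((P.D + 1) * (P.s * (18 * k * (B + 4) + 44) + 6) +
    (P.D + 1) * P.S * (P.D + 29) + (P.D + 16) * P.S ^ 2 + 16)

variable {G : Gr} {c : Bd} {V : List ℕ} {P : Pm} {g : Gl}

theorem Vtx.length_le (hV : Vtx G V) : V.length ≤ 2 * G.E.card := by
  refine (length_le_card hV.1 id (G.E.image (fun e => (G.ed e).a) ∪ G.E.image fun e => (G.ed e).b)
    (fun x hx => ?_) fun _ _ _ _ e => e).trans ((card_union_le _ _).trans ?_)
  · obtain ⟨q, s, rfl⟩ := (hV.2 x).1 hx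
    have := s.1
    simp only [vq, id, mem_union, mem_image, if_neg s.1]
    split_ifs
    · exact .inl ⟨_, s.2, rfl⟩
    · exact .inr ⟨_, s.2, rfl⟩
  · have := @card_image_le _ _ G.E (fun e => (G.ed e).a) _
    have := @card_image_le _ _ G.E (fun e => (G.ed e).b) _
    omega

theorem Enum.length_eq {l : List (ℕ × Ed)} (h : Enum G l) : l.length = G.E.card := by
  rw [← List.length_map Prod.fst, ← List.toFinset_card_of_nodup h.1]
  exact congrArg _ (ext fun e => by rw [List.mem_toFinset, h.2.1])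

theorem sp_liftR {k B : ℕ} {l : List (ℕ × Ed)} (h : LNum g.X P c k B) (hG : G.Ok c)
    (hl : Enum G l) :
    Sp g (liftR P k B c.lb l) fun T t => T.Ok G P c.m c.nb ∧ t ≤ liftT P c.m k B := by
  have hE : G.E.card ≤ c.m := (card_le_card hG.1).trans hG.2.1
  have hS := h.hP.S_pos
  have x3 : 3 * c.nb ≤ g.X := le_trans (le_trans (Nat.le_add_right _ 3)
    (le_trans (Nat.le_mul_of_pos_right _ (by omega)) (Nat.le_mul_of_pos_right _ hS))) h.X3
  refine (sp_prepR hG hl x3).bind fun p t1 ⟨he, hA, hV, hp, hch, c1⟩ => ?_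
  have v2 := hV.length_le
  have hk := h.hk
  refine (Cv.sp_coversR hV hA hG he h.hP (by omega) h.k1 h.hs h.hβ
    ((Nat.mul_le_mul_right _ (by omega)).trans h.hl) h.hB h.X1 h.X2).bind fun C t2 ⟨hC, c2⟩ =>
    (sp_nodesR hC h.hP hV hA hG hp hch h.X3).bind fun ord t3 ⟨nd, mem, pl, c3⟩ => ?_
  have ln : ord.length ≤ 4 * c.m * (P.D + 1) * P.S := by
    refine (length_le_pos h.hP nd (G.E.biUnion fun e =>
      {3 * e + 1, 3 * e + 2, 3 * (G.ed e).a, 3 * (G.ed e).b}) fun x hx =>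
        ⟨?_, ((mem x).1 hx).1⟩).trans (Nat.mul_le_mul_right _ (Nat.mul_le_mul_right _ ?_))
    · obtain ⟨e, he, k⟩ := ((mem x).1 hx).ps_cases h.hP hV hC
      exact mem_biUnion.2 ⟨e, he, by simpa using k⟩
    · exact (card_biUnion_le_card_mul _ _ 4 fun e _ => card_le_four).trans (by omega)
  refine (sp_fillR h.hP hC hp hG he nd mem pl
    (fun x hx => (((mem x).1 hx).lt h.hP hV hC hG).le.trans h.X3)
    ((Nat.mul_le_mul_right _ ln).trans h.X4) ((Nat.mul_le_mul_right _ ln).trans h.X5)).bind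
      fun T t4 ⟨hT, e, c4⟩ => (sp_objR h.hP hl hT).mono fun T' t5 ⟨k5, c5⟩ =>
        ⟨k5.ok h.hP hV hC hp hG, ?_⟩
  have n : p.2.2.1.length + 2 * G.E.card + 1 ≤ 4 * c.m + 1 := by omega
  have l1 : l.length ≤ c.m := (Enum.length_eq hl).trans_le hE
  have a2 := c2.trans (Nat.mul_le_mul_left _ n)
  have a3 := c3.trans (Nat.mul_le_mul_left _ (Nat.mul_le_mul_left _ n))
  have a5 := Nat.mul_le_mul_right ((P.D + 16) * P.S ^ 2) (show l.length ≤ 4 * c.m + 1 by omega)
  rw [e] at c5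
  unfold liftT
  generalize (P.D + 1) * (P.s * (18 * k * (B + 4) + 44) + 6) = y at *
  generalize (P.D + 16) * P.S ^ 2 = z at *
  rw [mul_assoc (4 * c.m)] at ln
  generalize (P.D + 1) * P.S = w at *
  nlinarith [Nat.zero_le w]

@[fun_prop] theorem impl_liftR {α : Type} [Rp α] {P : α → Pm} {k B lb : α → ℕ}
    {l : α → List (ℕ × Ed)} (h1 : Pu true P) (h2 : Pu true k) (h3 : Pu true B) (h4 : Pu true lb)
    (h5 : Pu true l) : Impl fun a => liftR (P a) (k a) (B a) (lb a) (l a) := by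
  unfold liftR; impl

end Crest.Agent.N325.Lt
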